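import Vale.Agent.P070.Statement

/-!
Short definitions for stating Naimark's problem over subalgebras with essential socle.
-/

namespace Vale.Agent.P070

universe u

variable {A : Type u} [NonUnitalCStarAlgebra A]

/-- A minimal projection of a subalgebra. -/
def IsMinimalProjection (D : NonUnitalStarSubalgebra ℂ A) (p : A) : Prop :=
  p ∈ D ∧ p ≠ 0 ∧ IsSelfAdjoint p ∧ p * p = p ∧ ∀ a ∈ D, ∃ r : ℂ, p * a * p = r • p

/-- The minimal projections of the subalgebra separate its elements. -/
def HasEssentialSocle (D : NonUnitalStarSubalgebra ℂ A) : Prop :=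
  ∀ x ∈ D, x ≠ 0 → ∃ p, IsMinimalProjection D p ∧ p * x ≠ 0

/-- The closure of an increasing sequence of subalgebras with essential socle. -/
def IsAtomicSequenceLimit (A : Type u) [NonUnitalCStarAlgebra A] : Prop :=
  ∃ D : ℕ → NonUnitalStarSubalgebra ℂ A, Monotone D ∧ Dense (⋃ n, (D n : Set A)) ∧
    ∀ n, HasEssentialSocle (D n)

end Vale.Agent.P070
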