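import Mathlib

/-!
Short definitions for stating Naimark's problem and regular maximal abelian subalgebras.
-/

namespace Vale.Agent.P070

universe u

/-- A representation on a Hilbert space. -/
abbrev Rep (A : Type u) [NonUnitalCStarAlgebra A] (H : Type u) [NormedAddCommGroup H]
    [InnerProductSpace ℂ H] [CompleteSpace H] : Type u :=
  A →⋆ₙₐ[ℂ] (H →L[ℂ] H)

variable {A : Type u} [NonUnitalCStarAlgebra A] {H : Type u} [NormedAddCommGroup H]
  [InnerProductSpace ℂ H] [CompleteSpace H]

/-- The operator attached to an element by a representation. -/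
noncomputable def repOp (π : Rep A H) (a : A) : H →L[ℂ] H := π a

/-- A representation is irreducible: nonzero, with no closed invariant subspace but the trivial
two. -/
def IsIrreducibleRep (π : Rep A H) : Prop :=
  (∃ a v, repOp π a v ≠ 0) ∧
    ∀ M : Submodule ℂ H, IsClosed (M : Set H) → (∀ a, ∀ v ∈ M, repOp π a v ∈ M) → M = ⊥ ∨ M = ⊤

/-- Unitary equivalence of two representations. -/
def AreEquivalent {H₁ H₂ : Type u} [NormedAddCommGroup H₁] [InnerProductSpace ℂ H₁]
    [CompleteSpace H₁] [NormedAddCommGroup H₂] [InnerProductSpace ℂ H₂] [CompleteSpace H₂]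
    (π : Rep A H₁) (σ : Rep A H₂) : Prop :=
  ∃ U : H₁ ≃ₗᵢ[ℂ] H₂, ∀ a v, U (repOp π a v) = repOp σ a (U v)

/-- Property (N): nonzero, with any two irreducible representations unitarily equivalent. -/
def HasPropertyN (A : Type u) [NonUnitalCStarAlgebra A] : Prop :=
  Nontrivial A ∧
  ∀ (H₁ : Type u) [NormedAddCommGroup H₁] [InnerProductSpace ℂ H₁] [CompleteSpace H₁]
    (H₂ : Type u) [NormedAddCommGroup H₂] [InnerProductSpace ℂ H₂] [CompleteSpace H₂]
    (π : Rep A H₁) (σ : Rep A H₂), IsIrreducibleRep π → IsIrreducibleRep σ → AreEquivalent π σ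

/-- `n` normalises the subset `D`. -/
def NormalizesSet (D : Set A) (n : A) : Prop :=
  ∀ d ∈ D, star n * d * n ∈ D ∧ n * d * star n ∈ D

/-- `D` is a regular maximal abelian self-adjoint subalgebra containing an approximate unit. -/
def IsRegularMasaSet (D : Set A) : Prop :=
  (∀ d ∈ D, star d ∈ D) ∧ (∀ a, a ∈ D ↔ ∀ d ∈ D, Commute a d) ∧
    (∀ a : A, ∀ ε : ℝ, 0 < ε → ∃ d ∈ D, ‖d * a - a‖ < ε) ∧
    Dense (Submodule.span ℂ {n | NormalizesSet D n} : Set A)

/-- `A` is isomorphic to the algebra of all compact operators on some Hilbert space. -/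
def IsCompactsAlgebra (A : Type u) [NonUnitalCStarAlgebra A] : Prop :=
  ∃ (H : Type u) (_ : NormedAddCommGroup H) (_ : InnerProductSpace ℂ H) (_ : CompleteSpace H)
    (π : Rep A H), Function.Injective (repOp π) ∧
      Set.range (repOp π) = {T : H →L[ℂ] H | IsCompactOperator T}

end Vale.Agent.P070
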