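import Vale.Agent.P070.Final
import Vale.Agent.P070.Statement

/-!
From a maximal abelian subset to the subalgebra used in the proof.
-/

namespace Vale.Agent.P070

universe u

variable {A : Type u} [NonUnitalCStarAlgebra A]

theorem isIrrRep_iff {H : Type u} [NormedAddCommGroup H] [InnerProductSpace ℂ H] [CompleteSpace H]
    (π : Rep A H) : IsIrreducibleRep π ↔ IsIrrRep π := by
  refine and_congr ⟨fun ⟨a, v, h⟩ e => h ?_, fun h => ?_⟩ Iff.rfl
  · simp [repOp, e]
  · by_contra hc
    push Not at hc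
    exact h (DFunLike.ext _ _ fun a => ContinuousLinearMap.ext fun v => hc a v)

theorem oneIrrRep_of_propertyN (h : HasPropertyN A) : OneIrrRep A :=
  fun H₁ _ _ _ H₂ _ _ _ π σ hπ hσ =>
    h.2 H₁ H₂ π σ ((isIrrRep_iff π).2 hπ) ((isIrrRep_iff σ).2 hσ)

theorem isCompactsAlgebra_of_regularMasaSet (hA : HasPropertyN A) (D : Set A)
    (hD : IsRegularMasaSet D) : IsCompactsAlgebra A := by
  obtain ⟨hstar, hmax, hunit, hdense⟩ := hD
  have := hA.1
  have hcomm : ∀ d ∈ D, ∀ e ∈ D, Commute d e := fun d hd => (hmax d).1 hd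
  let s : NonUnitalStarSubalgebra ℂ A :=
    { carrier := D
      add_mem' := fun ha hb => (hmax _).2 fun d hd =>
        ((hmax _).1 ha d hd).add_left ((hmax _).1 hb d hd)
      zero_mem' := (hmax _).2 fun d _ => Commute.zero_left d
      mul_mem' := fun ha hb => (hmax _).2 fun d hd =>
        ((hmax _).1 ha d hd).mul_left ((hmax _).1 hb d hd)
      smul_mem' := fun r a ha => (hmax _).2 fun d hd => ((hmax a).1 ha d hd).smul_left r
      star_mem' := fun ha => hstar _ ha }
  have hclosed : IsClosed (s : Set A) := by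
    have e : D = ⋂ d ∈ D, {a : A | a * d = d * a} := by
      ext a
      simp only [Set.mem_iInter, Set.mem_ofPred_eq]
      exact hmax a
    show IsClosed D
    rw [e]
    exact isClosed_biInter fun d _ => isClosed_eq (by fun_prop) (by fun_prop)
  let C₀ : NonUnitalCStarAlgebra s :=
    @NonUnitalStarSubalgebra.nonUnitalCStarAlgebra _ A _ _ _ _ _ s hclosed
  let C : NonUnitalCommCStarAlgebra s :=
    { C₀ with mul_comm := fun a b => Subtype.ext (hcomm _ a.2 _ b.2) }
  let ι : s →⋆ₙₐ[ℂ] A := NonUnitalStarSubalgebraClass.subtype s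
  have hrange : Set.range ι = D := Subtype.range_coe
  have hmasa : IsRegularMasa ι := by
    refine ⟨Subtype.val_injective, fun a ha => hrange ▸ (hmax a).2 fun d hd => ha ⟨d, hd⟩,
      fun a ε hε => ?_, ?_⟩
    · obtain ⟨d, hd, hlt⟩ := hunit a ε hε
      exact ⟨⟨d, hd⟩, hlt⟩
    · refine hdense.mono (Submodule.span_mono fun n hn c => ?_)
      rw [hrange]
      exact hn c c.2
  obtain ⟨H, _, _, _, π, hinj, hr⟩ := naimark_regularMasa A (oneIrrRep_of_propertyN hA) s ι hmasa
  exact ⟨H, inferInstance, inferInstance, inferInstance, π, hinj, hr⟩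

end Vale.Agent.P070
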