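import Vale.Agent.P070.Glimm
import Vale.Agent.P070.AtomicStatement
import Vale.Agent.P070.Bridge

/-!
Two chains of minimal projections with nothing between them, and the resulting minimal
projection of the whole algebra.
-/

namespace Vale.Agent.P070.Atomic

open scoped InnerProductSpace ComplexOrder
open Set InnerProductSpace Vale.Agent.P070.Small

universe u

variable {A : Type u} [NonUnitalCStarAlgebra A]

theorem real_scalar {p : A} {r : ℂ} (hp : IsSelfAdjoint p) (hp0 : p ≠ 0)
    (h : IsSelfAdjoint (r • p)) : star r = r := by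
  have e := h.star_eq
  rw [star_smul, hp.star_eq] at e
  exact smul_left_injective ℂ hp0 e

theorem proj_mul_symm {p q : A} (hp : IsSelfAdjoint p) (hq : IsSelfAdjoint q) (h : p * q = q) :
    q * p = q := by
  have e := congrArg star h
  rwa [star_mul, hp.star_eq, hq.star_eq] at e

/-- A nonzero projection lies above a minimal one. -/
theorem exists_below {D : NonUnitalStarSubalgebra ℂ A} (hD : HasEssentialSocle D) {e : A}
    (heD : e ∈ D) (he0 : e ≠ 0) (he : IsSelfAdjoint e) (hee : e * e = e) :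
    ∃ q, IsMinimalProjection D q ∧ e * q = q := by
  obtain ⟨p, ⟨hpD, hp0, hp, hpp, hmin⟩, hpe⟩ := hD e heD he0
  obtain ⟨r, hr⟩ := hmin e heD
  have hpep : (p * e) * star (p * e) = p * e * p := by
    rw [star_mul, he.star_eq, hp.star_eq, ← mul_assoc, mul_assoc p e e, hee]
  have hr0 : r ≠ 0 := by
    rintro rfl
    rw [zero_smul, ← hpep, CStarRing.mul_star_self_eq_zero_iff] at hr
    exact hpe hr
  have hrs : star r = r := real_scalar hp hp0 (by
    rw [← hr, ← hpep]; exact IsSelfAdjoint.mul_star_self _)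
  have hqq : (e * p * e) * (e * p * e) = r • (e * p * e) := by
    rw [show (e * p * e) * (e * p * e) = e * (p * (e * e) * p) * e by simp only [mul_assoc],
      hee, hr, mul_smul_comm, smul_mul_assoc]
  refine ⟨r⁻¹ • (e * p * e), ⟨?_, ?_, ?_, ?_, ?_⟩, ?_⟩
  · exact SMulMemClass.smul_mem _ (mul_mem (mul_mem heD hpD) heD)
  · intro h
    rw [smul_eq_zero] at h
    have h' : e * p * e = 0 := h.resolve_left (inv_ne_zero hr0)
    have e2 : p * (e * p * e) * p = (r * r) • p := by
      rw [show p * (e * p * e) * p = (p * e * p) * (e * p) by simp only [mul_assoc], hr,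
        smul_mul_assoc, ← mul_assoc, hr, smul_smul]
    rw [h', mul_zero, zero_mul] at e2
    exact hp0 ((smul_eq_zero.1 e2.symm).resolve_left (mul_ne_zero hr0 hr0))
  · rw [IsSelfAdjoint, star_smul, star_inv₀, hrs, star_mul, star_mul, he.star_eq, hp.star_eq,
      mul_assoc]
  · rw [smul_mul_smul_comm, hqq, smul_smul]
    congr 1
    field_simp
  · intro a ha
    obtain ⟨t, ht⟩ := hmin (e * a * e) (mul_mem (mul_mem heD ha) heD)
    refine ⟨r⁻¹ * t, ?_⟩
    rw [smul_mul_assoc, smul_mul_assoc, mul_smul_comm, smul_smul,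
      show (e * p * e) * a * (e * p * e) = e * (p * (e * a * e) * p) * e by simp only [mul_assoc],
      ht, mul_smul_comm, smul_mul_assoc, smul_smul, smul_smul]
    congr 1
    ring
  · rw [mul_smul_comm, ← mul_assoc, ← mul_assoc, hee]

/-- A stage of the construction: two minimal projections of one member. -/
structure Stage (D : ℕ → NonUnitalStarSubalgebra ℂ A) where
  n : ℕ
  p : A
  q : A
  hp : IsMinimalProjection (D n) p
  hq : IsMinimalProjection (D n) q

variable {D : ℕ → NonUnitalStarSubalgebra ℂ A}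

/-- Without minimal projections in the whole, two minimal projections of a member can be
refined to a pair with nothing of that member between them. -/
theorem exists_next (hmono : Monotone D) (hdense : Dense (⋃ n, (D n : Set A)))
    (hD : ∀ n, HasEssentialSocle (D n))
    (hA : ∀ p : A, p ≠ 0 → IsSelfAdjoint p → p * p = p → ¬ ∀ a, ∃ r : ℂ, p * a * p = r • p)
    (S : Stage D) : ∃ T : Stage D, S.n < T.n ∧ S.p * T.p = T.p ∧ S.q * T.q = T.q ∧
      ∀ a ∈ D S.n, T.p * a * T.q = 0 := by
  obtain ⟨n, p, q, ⟨hpD, hp0, hp, hpp, hpmin⟩, hqD, hq0, hq, hqq, hqmin⟩ := S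
  dsimp only
  obtain ⟨m, hnm, hm⟩ : ∃ m, n < m ∧ ¬ ∀ a ∈ D m, ∃ r : ℂ, p * a * p = r • p := by
    by_contra hc
    push Not at hc
    refine hA p hp0 hp hpp fun a => ?_
    have hcl : IsClosed {a : A | p * a * p ∈ Submodule.span ℂ {p}} :=
      (Submodule.closed_of_finiteDimensional _).preimage (by fun_prop)
    have h := closure_minimal (fun c hc' => ?_) hcl (hdense a)
    · obtain ⟨r, hr⟩ := Submodule.mem_span_singleton.1 h
      exact ⟨r, hr.symm⟩
    obtain ⟨i, hi⟩ := mem_iUnion.1 hc'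
    obtain ⟨r, hr⟩ := hc (max i (n + 1)) (by omega) c (hmono (le_max_left _ _) hi)
    exact Submodule.mem_span_singleton.2 ⟨r, hr.symm⟩
  have hle : D n ≤ D m := hmono hnm.le
  by_cases hzero : ∀ a ∈ D n, p * a * q = 0
  · obtain ⟨p', hp', hpp'⟩ := exists_below (hD m) (hle hpD) hp0 hp hpp
    obtain ⟨q', hq', hqq'⟩ := exists_below (hD m) (hle hqD) hq0 hq hqq
    refine ⟨⟨m, p', q', hp', hq'⟩, hnm, hpp', hqq', fun a ha => ?_⟩
    show p' * a * q' = 0
    rw [← proj_mul_symm hp hp'.2.2.1 hpp', ← hqq',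
      show p' * p * a * (q * q') = p' * (p * a * q) * q' by simp only [mul_assoc], hzero a ha,
      mul_zero, zero_mul]
  push Not at hzero
  obtain ⟨a0, ha0, hw0⟩ := hzero
  set w := p * a0 * q with hw
  have hwD : w ∈ D n := mul_mem (mul_mem hpD ha0) hqD
  have hpw : p * w = w := by rw [hw, ← mul_assoc, ← mul_assoc, hpp]
  have hwq : w * q = w := by rw [hw, mul_assoc, hqq]
  have hqw : q * star w = star w := by
    have e := congrArg star hwq; rwa [star_mul, hq.star_eq] at e
  have hwp : star w * p = star w := by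
    have e := congrArg star hpw; rwa [star_mul, hp.star_eq] at e
  obtain ⟨r, hr⟩ := hqmin (star w * w) (mul_mem (star_mem hwD) hwD)
  rw [← mul_assoc, hqw, mul_assoc, hwq] at hr
  obtain ⟨s, hs⟩ := hpmin (w * star w) (mul_mem hwD (star_mem hwD))
  rw [← mul_assoc, hpw, mul_assoc, hwp] at hs
  have hr0 : r ≠ 0 := by
    rintro rfl
    rw [zero_smul, CStarRing.star_mul_self_eq_zero_iff] at hr
    exact hw0 hr
  have hsr : s = r := by
    have e : r • w = s • w := by
      calc r • w = w * (star w * w) := by rw [hr, mul_smul_comm, hwq]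
        _ = (w * star w) * w := (mul_assoc _ _ _).symm
        _ = s • w := by rw [hs, smul_mul_assoc, hpw]
    exact (smul_left_injective ℂ hw0 e).symm
  subst hsr
  have hrs : star s = s := real_scalar hq hq0 (hr ▸ IsSelfAdjoint.star_mul_self w)
  have between : ∀ a ∈ D n, ∃ t : ℂ, p * a * q = t • w := by
    intro a ha
    obtain ⟨t, ht⟩ := hqmin (star w * a) (mul_mem (star_mem hwD) ha)
    refine ⟨s⁻¹ * t, ?_⟩
    calc p * a * q = s⁻¹ • ((w * star w) * (a * q)) := by
          rw [hs, smul_mul_assoc, smul_smul, inv_mul_cancel₀ hr0, one_smul, mul_assoc]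
      _ = s⁻¹ • (w * (q * (star w * a) * q)) := by
          rw [← mul_assoc q, hqw]; simp only [mul_assoc]
      _ = (s⁻¹ * t) • w := by rw [ht, mul_smul_comm, hwq, smul_smul]
  obtain ⟨q', hq', hqq'⟩ := exists_below (hD m) (hle hqD) hq0 hq hqq
  have hq'q := proj_mul_symm hq hq'.2.2.1 hqq'
  set R := s⁻¹ • (w * q' * star w) with hR
  have hRD : R ∈ D m :=
    SMulMemClass.smul_mem _ (mul_mem (mul_mem (hle hwD) hq'.1) (star_mem (hle hwD)))
  have hRsa : IsSelfAdjoint R := by
    rw [hR, IsSelfAdjoint, star_smul, star_inv₀, hrs, star_mul (w * q') (star w), star_mul w q', star_star,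
      hq'.2.2.1.star_eq]
    simp only [hw, mul_assoc]
  have hRR : R * R = R := by
    rw [hR, smul_mul_smul_comm, show w * q' * star w * (w * q' * star w) =
      w * (q' * (star w * w) * q') * star w by simp only [mul_assoc], hr, mul_smul_comm, hq'q,
      smul_mul_assoc, hq'.2.2.2.1, mul_smul_comm, smul_mul_assoc, smul_smul]
    congr 1
    field_simp
  have hpR : p * R = R := by rw [hR, mul_smul_comm, ← mul_assoc, ← mul_assoc, hpw]
  have hRp := proj_mul_symm hp hRsa hpR
  have hne : p - R ≠ 0 := by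
    intro h
    refine hm fun a ha => ?_
    obtain ⟨t, ht⟩ := hq'.2.2.2.2 (star w * a * w)
      (mul_mem (mul_mem (star_mem (hle hwD)) ha) (hle hwD))
    refine ⟨s⁻¹ * t, ?_⟩
    rw [sub_eq_zero] at h
    rw [h, hR, smul_mul_assoc, smul_mul_assoc, mul_smul_comm, smul_smul,
      show w * q' * star w * a * (w * q' * star w) =
        w * (q' * (star w * a * w) * q') * star w by simp only [mul_assoc],
      ht, mul_smul_comm, smul_mul_assoc, smul_smul, smul_smul]
    congr 1
    ring
  obtain ⟨p', hp', hpp'⟩ := exists_below (hD m) (sub_mem (hle hpD) hRD) hne (hp.sub hRsa)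
    (by rw [sub_mul, mul_sub, mul_sub, hpp, hpR, hRp, hRR]; abel)
  have hp'e := proj_mul_symm (hp.sub hRsa) hp'.2.2.1 hpp'
  have hp'p : p * p' = p' := by
    conv_lhs => rw [← hpp', ← mul_assoc, mul_sub, hpp, hpR]
    exact hpp'
  have hp'R : p' * R = 0 := by
    rw [← hp'e, mul_assoc, sub_mul, hpR, hRR, sub_self, mul_zero]
  have hcut : p' * w * q' = 0 := by
    have e : s • (p' * R * w) = (p' * w * q') * (star w * w) := by
      rw [hR, mul_smul_comm, smul_mul_assoc, smul_smul, mul_inv_cancel₀ hr0, one_smul]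
      simp only [mul_assoc]
    rw [hp'R, zero_mul, smul_zero, hr, mul_smul_comm, mul_assoc (p' * w), hq'q] at e
    exact (smul_eq_zero.1 e.symm).resolve_left hr0
  refine ⟨⟨m, p', q', hp', hq'⟩, hnm, hp'p, hqq', fun a ha => ?_⟩
  obtain ⟨t, ht⟩ := between a ha
  show p' * a * q' = 0
  rw [← proj_mul_symm hp hp'.2.2.1 hp'p, ← hqq',
    show p' * p * a * (q * q') = p' * (p * a * q) * q' by simp only [mul_assoc], ht,
    mul_smul_comm, smul_mul_assoc, hcut, smul_zero]

variable {H : Type u} [NormedAddCommGroup H] [InnerProductSpace ℂ H] [CompleteSpace H]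
variable {π : A →⋆ₙₐ[ℂ] (H →L[ℂ] H)}

/-- A decreasing sequence of nonzero projections fixes a unit vector. -/
theorem exists_fixed (hN : OneIrrRep A) (hπ : IsIrrRep π) (p : ℕ → A) (h0 : ∀ k, p k ≠ 0)
    (hsa : ∀ k, IsSelfAdjoint (p k)) (hpp : ∀ k, p k * p k = p k)
    (hdec : ∀ k, p k * p (k + 1) = p (k + 1)) : ∃ v : H, ‖v‖ = 1 ∧ ∀ k, π (p k) v = v := by
  have hle : ∀ m j, p j * p (j + m) = p (j + m) := by
    intro m
    induction m with
    | zero => intro j; exact hpp j
    | succ m ih =>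
      intro j
      rw [← add_assoc, ← hdec (j + m), ← mul_assoc, ih]
  have hn : ∀ k, ‖p k‖ ≤ 1 := fun k => by
    have h := CStarRing.norm_star_mul_self (x := p k)
    rw [(hsa k).star_eq, hpp] at h
    nlinarith [norm_nonneg (p k)]
  let t : ℕ → Set (WeakDual ℂ (Unitization ℂ A)) := fun n =>
    {φ | φ ∈ stateSet (Unitization ℂ A) ∧ ∀ k ≤ n, φ ((p k : A) : Unitization ℂ A) = 1}
  have tcl : ∀ n, IsClosed (t n) := fun n => by
    refine IsClosed.inter isClosed_stateSet ?_
    show IsClosed {φ : WeakDual ℂ (Unitization ℂ A) |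
      ∀ k ≤ n, φ ((p k : A) : Unitization ℂ A) = 1}
    simp only [ofPred_forall]
    exact isClosed_biInter fun k _ => isClosed_eq (WeakDual.eval_continuous _) continuous_const
  have tne : ∀ n, (t n).Nonempty := by
    intro n
    obtain ⟨z, hz⟩ : ∃ z, π (p n) z ≠ 0 := by
      by_contra hc
      push Not at hc
      have e : π (p n) = 0 := ContinuousLinearMap.ext hc
      exact h0 n (injective hN hπ (e.trans (map_zero π).symm))
    obtain ⟨e, he, hedef⟩ := exists_unit hz
    obtain ⟨φ, hφ, hφv⟩ := exists_vectorState (Unitization.starLift π) e he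
    refine ⟨φ, hφ, fun k hk => ?_⟩
    obtain ⟨m, rfl⟩ := Nat.exists_eq_add_of_le hk
    have hfe : π (p k) e = e := by rw [hedef, map_smul, ← map_mul_apply, hle]
    rw [hφv, starLift_inr, hfe, inner_self_eq_norm_sq_to_K, he]
    simp
  obtain ⟨φ, hφ⟩ := IsCompact.nonempty_iInter_of_sequence_nonempty_isCompact_isClosed t
    (fun n φ h => ⟨h.1, fun k hk => h.2 k (hk.trans (Nat.le_succ n))⟩) tne
    (isCompact_stateSet.of_isClosed_subset (tcl 0) fun φ h => h.1) tcl
  rw [mem_iInter] at hφ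
  obtain ⟨v, hv, hfix⟩ := fixed_vector hN hπ (range p) (by rintro _ ⟨k, rfl⟩; exact hn k)
    ⟨_, 0, rfl⟩ ⟨φ, (hφ 0).1, by rintro _ ⟨k, rfl⟩; exact (hφ k).2 k le_rfl⟩
  exact ⟨v, hv, fun k => hfix _ ⟨k, rfl⟩⟩

/-- The whole algebra has a minimal projection. -/
theorem exists_minimal (hN : OneIrrRep A) (hπ : IsIrrRep π) [Nontrivial A] (hmono : Monotone D)
    (hdense : Dense (⋃ n, (D n : Set A))) (hD : ∀ n, HasEssentialSocle (D n)) :
    ∃ p : A, p ≠ 0 ∧ IsSelfAdjoint p ∧ p * p = p ∧ ∀ a, ∃ r : ℂ, p * a * p = r • p := by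
  by_contra hc
  have hA : ∀ p : A, p ≠ 0 → IsSelfAdjoint p → p * p = p →
      ¬ ∀ a, ∃ r : ℂ, p * a * p = r • p := fun p h1 h2 h3 h4 => hc ⟨p, h1, h2, h3, h4⟩
  obtain ⟨x, hxU, hx⟩ : ∃ a ∈ ⋃ n, (D n : Set A), a ≠ 0 := by
    by_contra hc'
    push Not at hc'
    obtain ⟨x, hx⟩ := exists_ne (0 : A)
    exact hx (closure_minimal (fun a ha => hc' a ha) isClosed_singleton (hdense x))
  obtain ⟨n0, hn0⟩ := mem_iUnion.1 hxU
  obtain ⟨p0, hp0, -⟩ := hD n0 x hn0 hx
  choose next hlt hnp hnq hcut using exists_next hmono hdense hD hA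
  let S : ℕ → Stage D := fun k => Nat.rec ⟨n0, p0, p0, hp0, hp0⟩ (fun _ T => next T) k
  obtain ⟨η, hη, hηfix⟩ := exists_fixed hN hπ (fun k => (S k).p) (fun k => (S k).hp.2.1)
    (fun k => (S k).hp.2.2.1) (fun k => (S k).hp.2.2.2.1) fun k => hnp (S k)
  obtain ⟨ξ, hξ, hξfix⟩ := exists_fixed hN hπ (fun k => (S k).q) (fun k => (S k).hq.2.1)
    (fun k => (S k).hq.2.2.1) (fun k => (S k).hq.2.2.2.1) fun k => hnq (S k)
  have hgrow : ∀ k, k ≤ (S k).n := by
    intro k
    induction k with
    | zero => exact Nat.zero_le _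
    | succ k ih => exact (ih.trans_lt (hlt (S k)) : k < (S (k + 1)).n)
  have horth : ∀ a : A, ⟪η, π a ξ⟫_ℂ = 0 := by
    intro a
    refine closure_minimal (t := {a | ⟪η, π a ξ⟫_ℂ = 0}) ?_
      (isClosed_eq (continuous_const.inner (continuous_apply_rep ξ)) continuous_const) (hdense a)
    intro c hc'
    obtain ⟨i, hi⟩ := mem_iUnion.1 hc'
    have h : (S (i + 1)).p * c * (S (i + 1)).q = 0 := hcut (S i) c (hmono (hgrow i) hi)
    have e : ⟪η, π c ξ⟫_ℂ = ⟪η, π ((S (i + 1)).p * c * (S (i + 1)).q) ξ⟫_ℂ := by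
      conv_lhs => rw [← hηfix (i + 1), inner_map, (S (i + 1)).hp.2.2.1.star_eq]
      rw [map_mul_apply, map_mul_apply]
      exact congrArg (fun z => ⟪η, π (S (i + 1)).p (π c z)⟫_ℂ) (hξfix (i + 1)).symm
    show ⟪η, π c ξ⟫_ℂ = 0
    rw [e, h, map_zero π]
    simp
  have hξ0 : ξ ≠ 0 := by intro h; simp [h] at hξ
  have h0 : ⟪η, η⟫_ℂ = 0 :=
    closure_minimal (t := {z | ⟪η, z⟫_ℂ = 0}) (by rintro _ ⟨a, rfl⟩; exact horth a)
      (isClosed_eq (by fun_prop) continuous_const) (cyclic hπ hξ0 η)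
  rw [inner_self_eq_zero.1 h0] at hη
  simp at hη

end Vale.Agent.P070.Atomic

namespace Vale.Agent.P070

universe u

theorem isCompactsAlgebra_of_atomicSequence {A : Type u} [NonUnitalCStarAlgebra A]
    (hA : HasPropertyN A) (h : IsAtomicSequenceLimit A) : IsCompactsAlgebra A := by
  obtain ⟨D, hmono, hdense, hD⟩ := h
  have := hA.1
  have hN := oneIrrRep_of_propertyN hA
  refine exists_irrep (A := A) fun K _ _ _ π hπ => ?_
  obtain ⟨p, hp0, hp, hpp, hmin⟩ := Atomic.exists_minimal hN hπ hmono hdense hD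
  have hR := Small.rankOne_mem hN hπ hp0 hp hpp hmin
  refine ⟨K, inferInstance, inferInstance, inferInstance, π, Small.injective hN hπ, ?_⟩
  refine Set.Subset.antisymm ?_ fun T hT => Small.compact_in_range hN hπ hR hT
  rintro _ ⟨a, rfl⟩
  exact Small.compact_mem hN hπ hR a

end Vale.Agent.P070
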