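import Vale.Agent.P070.Eigen

/-!
One splitting step near a character which is not isolated.
-/

namespace Vale.Agent.P070

open scoped InnerProductSpace ComplexOrder
open Set

universe u

variable {A C : Type u} [NonUnitalCStarAlgebra A] [NonUnitalCommCStarAlgebra C]
variable {H : Type u} [NormedAddCommGroup H] [InnerProductSpace ℂ H] [CompleteSpace H]
variable {π : A →⋆ₙₐ[ℂ] (H →L[ℂ] H)} {ι : C →⋆ₙₐ[ℂ] A}

/-- Cutoff above one half. -/
noncomputable def cut0 (t : ℝ) : ℝ := max 0 (min 1 (4 * t - 2))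

/-- Cutoff above seven eighths. -/
noncomputable def cut1 (t : ℝ) : ℝ := max 0 (min 1 (8 * t - 7))

/-- An inverse square root above one half. -/
noncomputable def isq (t : ℝ) : ℝ := max 0 (min 1 (2 * t)) / Real.sqrt (max t (1 / 2))

theorem continuous_cut0 : Continuous cut0 := by unfold cut0; fun_prop

theorem continuous_cut1 : Continuous cut1 := by unfold cut1; fun_prop

theorem continuous_isq : Continuous isq := by
  refine Continuous.div (by fun_prop) (by fun_prop) fun t => (Real.sqrt_pos.2 ?_).ne'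
  exact lt_max_of_lt_right (by norm_num)

theorem cut0_zero : cut0 0 = 0 := by norm_num [cut0]

theorem cut1_zero : cut1 0 = 0 := by norm_num [cut1]

theorem isq_zero : isq 0 = 0 := by norm_num [isq]

theorem cut0_one : cut0 1 = 1 := by norm_num [cut0]

theorem cut1_one : cut1 1 = 1 := by norm_num [cut1]

theorem cut0_nonneg (t : ℝ) : 0 ≤ cut0 t := le_max_left _ _

theorem cut0_le (t : ℝ) : cut0 t ≤ 1 := max_le zero_le_one (min_le_left _ _)

theorem cut1_nonneg (t : ℝ) : 0 ≤ cut1 t := le_max_left _ _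

theorem cut1_le (t : ℝ) : cut1 t ≤ 1 := max_le zero_le_one (min_le_left _ _)

theorem half_lt_of_cut0 {t : ℝ} (h : cut0 t ≠ 0) : 1 / 2 < t := by
  by_contra hc
  refine h (max_eq_left (min_le_of_right_le ?_))
  linarith [not_lt.1 hc]

theorem cut0_of_cut1 {t : ℝ} (h : cut1 t ≠ 0) : cut0 t = 1 := by
  have : 7 / 8 < t := by
    by_contra hc
    refine h (max_eq_left (min_le_of_right_le ?_))
    linarith [not_lt.1 hc]
  rw [cut0, min_eq_left (by linarith), max_eq_right zero_le_one]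

theorem isq_sq {t : ℝ} (h : 1 / 2 < t) : isq t * isq t * t = 1 := by
  rw [isq, min_eq_left (by linarith), max_eq_right zero_le_one, max_eq_left h.le]
  field_simp
  exact (Real.sq_sqrt (by linarith)).symm

theorem char_real (y : C →⋆ₙₐ[ℂ] ℂ) {w : C} (hw : IsSelfAdjoint w) : y w = ((y w).re : ℂ) := by
  have h : star (y w) = y w := by rw [← map_star y, hw.star_eq]
  exact (Complex.conj_eq_iff_re.1 h).symm

theorem char_cfc (y : C →⋆ₙₐ[ℂ] ℂ) {w : C} (hw : IsSelfAdjoint w) {f : ℝ → ℝ}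
    (hf : Continuous f) (hf0 : f 0 = 0) : y (cfcₙ f w) = ((f (y w).re : ℝ) : ℂ) := by
  have hc : Continuous y := AddMonoidHomClass.continuous_of_bound y 1 fun a => by
    simpa using NonUnitalStarAlgHom.norm_apply_le y a
  rw [y.map_cfcₙ f w hf.continuousOn hf0 hc hw (hw.map y),
    cfcₙ_eq_cfc (R := ℝ) (A := ℂ) hf.continuousOn hf0]
  conv_lhs => rw [char_real y hw]
  exact cfc_algebraMap (A := ℂ) (y w).re f

theorem norm_cfc_le_one {w : C} {f : ℝ → ℝ} (h0 : ∀ t, 0 ≤ f t) (h1 : ∀ t, f t ≤ 1) :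
    ‖cfcₙ f w‖ ≤ 1 :=
  norm_cfcₙ_le fun t _ => by rw [Real.norm_eq_abs, abs_of_nonneg (h0 t)]; exact h1 t

/-- A normalised square, with value one at `x`. -/
noncomputable def unitSq (x : C →⋆ₙₐ[ℂ] ℂ) (c : C) : C :=
  ((Complex.normSq (x c))⁻¹ : ℂ) • (star c * c)

theorem unitSq_apply (x y : C →⋆ₙₐ[ℂ] ℂ) (c : C) :
    y (unitSq x c) = ((Complex.normSq (y c) / Complex.normSq (x c) : ℝ) : ℂ) := by
  rw [unitSq, map_smul y, map_mul y, map_star y, smul_eq_mul, Complex.star_def,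
    ← Complex.normSq_eq_conj_mul_self]
  push_cast
  ring

theorem unitSq_sa (x : C →⋆ₙₐ[ℂ] ℂ) (c : C) : IsSelfAdjoint (unitSq x c) := by
  refine IsSelfAdjoint.smul ?_ (IsSelfAdjoint.star_mul_self c)
  simp [IsSelfAdjoint]

variable (π ι) in
/-- The invariant after `k` splitting steps. -/
structure Good (x : C →⋆ₙₐ[ℂ] ℂ) (k : ℕ) (U : A) (c : C) : Prop where
  at_base : x c ≠ 0
  spread : ∀ y z, Eig π ι y z → ∃ y', Eig π ι y' (π (star U) z) ∧
    ‖π (star U) z‖ ^ 2 ≤ (1 / 2) ^ k * ‖z‖ ^ 2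
  contraction : ‖U‖ ≤ 1
  isom : ∀ y z, Eig π ι y z → y c ≠ 0 → π (star U) (π U z) = z

namespace Setting

variable (S : Setting π ι)
include S

/-- Operators agreeing on eigenvectors are equal. -/
theorem ext_eig {x : C →⋆ₙₐ[ℂ] ℂ} {ξ : H} (hξ : ξ ≠ 0) (hx : Eig π ι x ξ) {a b : A}
    (h : ∀ y z, Eig π ι y z → π a z = π b z) : a = b := by
  refine S.injective (ContinuousLinearMap.ext_on (S.dense_eig hξ hx) ?_)
  rintro z ⟨y, hy⟩
  exact h y z hy

theorem exists_link {x y : C →⋆ₙₐ[ℂ] ℂ} {ξ z : H} (hξ : ξ ≠ 0) (hx : Eig π ι x ξ) (hz : z ≠ 0)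
    (hy : Eig π ι y z) : ∃ n r, IsNormalizer ι n ∧ ι r = star n * n ∧ π n ξ ≠ 0 ∧
      ∀ c m, ι m = star n * ι c * n → y c * x r = x m := by
  by_cases hall : ∀ n, IsNormalizer ι n → ⟪z, π n ξ⟫_ℂ = 0
  · refine (hz ?_).elim
    have hspan : ∀ a ∈ Submodule.span ℂ {n | IsNormalizer ι n}, ⟪z, π a ξ⟫_ℂ = 0 := by
      intro a ha
      induction ha using Submodule.span_induction with
      | mem n hn => exact hall n hn
      | zero => simp [map_zero π]
      | add p q _ _ hp hq => rw [map_add π, add_apply, inner_add_right, hp, hq, add_zero]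
      | smul r p _ hp => rw [map_smul π, smul_apply, inner_smul_right, hp, mul_zero]
    have hA : ∀ a, ⟪z, π a ξ⟫_ℂ = 0 := fun a => congrFun
      (Continuous.ext_on (S.masa.2.2.2) (continuous_const.inner (continuous_apply_rep (π := π) ξ))
        (continuous_const (y := (0 : ℂ))) hspan) a
    have hH : ∀ v, ⟪z, v⟫_ℂ = 0 := fun v => congrFun
      ((S.cyclic hξ).equalizer (g := fun v : H => ⟪z, v⟫_ℂ) (h := fun _ => (0 : ℂ))
        (continuous_const.inner continuous_id) continuous_const (funext hA)) v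
    exact inner_self_eq_zero.1 (hH z)
  · simp only [not_forall] at hall
    obtain ⟨n, hn, hne⟩ := hall
    obtain ⟨r, hr⟩ := S.star_mul_self_mem hn
    have hnξ : π n ξ ≠ 0 := fun h => hne (by rw [h, inner_zero_right])
    obtain ⟨-, y', hy', hval⟩ := S.map_eig hn hr hx hnξ
    have : y = y' := by
      by_contra hne'
      exact hne (inner_eq_zero_of_ne hy hy' hne')
    subst this
    exact ⟨n, r, hn, hr, hnξ, hval⟩

/-- The splitting step. -/
theorem step {x : C →⋆ₙₐ[ℂ] ℂ} {ξ : H} (hξ : ξ ≠ 0) (hx : Eig π ι x ξ)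
    (hni : ∀ c, x c ≠ 0 → ∃ y z, y ≠ x ∧ z ≠ 0 ∧ Eig π ι y z ∧ y c ≠ 0)
    {k : ℕ} {U : A} {c : C} (G : Good π ι x k U c) :
    ∃ U' c', Good π ι x (k + 1) U' c' ∧ ∀ y z, Eig π ι y z → y c' ≠ 0 →
      ∃ y₁ z₁ y₂ z₂, Eig π ι y₁ z₁ ∧ y₁ c ≠ 0 ∧ Eig π ι y₂ z₂ ∧ y₂ c ≠ 0 ∧
        π U' z = π U z₁ + π U z₂ := by
  obtain ⟨y', z', hne, hz', hy', hy'c⟩ := hni c G.at_base
  obtain ⟨n, r, hn, hr, hnξ, hval⟩ := S.exists_link hξ hx hz' hy'
  -- an element separating the two characters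
  obtain ⟨q, hqx, hqy⟩ : ∃ q, x q = 0 ∧ y' q ≠ 0 := by
    obtain ⟨e, he⟩ := DFunLike.ne_iff.1 hne
    set k0 := (x c)⁻¹ • c with hk0
    have hk : x k0 = 1 := by rw [hk0, map_smul x, smul_eq_mul, inv_mul_cancel₀ G.at_base]
    have hk' : y' k0 ≠ 0 := by
      rw [hk0, map_smul y', smul_eq_mul]; exact mul_ne_zero (inv_ne_zero G.at_base) hy'c
    by_cases h1 : y' (k0 - k0 * k0) = 0
    · rw [map_sub y', map_mul y'] at h1
      have hk1 : y' k0 = 1 := by
        refine mul_left_cancel₀ hk' ?_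
        rw [mul_one]; linear_combination -h1
      refine ⟨e - x e • k0, by rw [map_sub x, map_smul x, hk]; simp, ?_⟩
      rw [map_sub y', map_smul y', hk1]
      simpa [sub_eq_zero] using he
    · exact ⟨k0 - k0 * k0, by rw [map_sub x, map_mul x, hk]; simp, h1⟩
  set d := unitSq y' q with hd
  have hd_sa : IsSelfAdjoint d := unitSq_sa y' q
  have hd_nonneg : ∀ y : C →⋆ₙₐ[ℂ] ℂ, 0 ≤ (y d).re := fun y => by
    rw [hd, unitSq_apply, Complex.ofReal_re]
    exact div_nonneg (Complex.normSq_nonneg _) (Complex.normSq_nonneg _)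
  have hdx : x d = 0 := by rw [hd, unitSq_apply, hqx]; simp
  have hdy : y' d = 1 := by
    rw [hd, unitSq_apply, div_self (by rw [Ne, Complex.normSq_eq_zero]; exact hqy)]
    simp
  obtain ⟨mc, hmc⟩ := (hn c).1
  obtain ⟨md, hmd⟩ := (hn d).1
  have hr_sa : IsSelfAdjoint r := by
    refine S.masa.1 ?_
    rw [map_star ι, hr, star_mul, star_star]
  have hmd_sa : IsSelfAdjoint md := by
    refine S.masa.1 ?_
    rw [map_star ι, hmd, star_mul, star_mul, ← map_star ι, hd_sa.star_eq, star_star, mul_assoc]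
  set s := (x r).re with hs_def
  have hs : 0 < s := by
    have e := norm_map_sq hr hx
    have e' := congrArg Complex.re e
    rw [Complex.ofReal_re, Complex.re_mul_ofReal] at e'
    have : 0 < ‖π n ξ‖ ^ 2 := by positivity
    rw [e'] at this
    exact pos_of_mul_pos_left this (sq_nonneg _)
  have hxr : x r = (s : ℂ) := char_real x hr_sa
  have hxmd : x md = (s : ℂ) := by rw [← hval d md hmd, hdy, one_mul, hxr]
  have hxmc : x mc ≠ 0 := by
    rw [← hval c mc hmc, hxr]
    exact mul_ne_zero hy'c (by exact_mod_cast hs.ne')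
  -- the five tests
  set w1 := unitSq x c with hw1
  set w2 := unitSq x mc with hw2
  set w3 := ((s⁻¹ : ℝ) : ℂ) • r with hw3
  set w4 := cfcₙ cut0 w1 - (2 : ℂ) • d with hw4
  set w5 := ((s⁻¹ : ℝ) : ℂ) • ((2 : ℂ) • md - r) with hw5
  have h1sa : IsSelfAdjoint w1 := unitSq_sa x c
  have h2sa : IsSelfAdjoint w2 := unitSq_sa x mc
  have h3sa : IsSelfAdjoint w3 := IsSelfAdjoint.smul (Complex.conj_ofReal _) hr_sa
  have h4sa : IsSelfAdjoint w4 :=
    IsSelfAdjoint.sub (cfcₙ_predicate cut0 w1) (IsSelfAdjoint.smul (Complex.conj_ofReal 2) hd_sa)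
  have h5sa : IsSelfAdjoint w5 := IsSelfAdjoint.smul (Complex.conj_ofReal _)
    (IsSelfAdjoint.sub (IsSelfAdjoint.smul (Complex.conj_ofReal 2) hmd_sa) hr_sa)
  set H0 := cfcₙ cut0 w1 * cfcₙ cut0 w2 * cfcₙ cut0 w3 * cfcₙ cut0 w4 * cfcₙ cut0 w5 with hH0
  set c' := cfcₙ cut1 w1 * cfcₙ cut1 w2 * cfcₙ cut1 w3 * cfcₙ cut1 w4 * cfcₙ cut1 w5 with hc'
  set h1 := (((Real.sqrt s)⁻¹ : ℝ) : ℂ) • (H0 * cfcₙ isq w3) with hh1
  let p : (C →⋆ₙₐ[ℂ] ℂ) → ℝ := fun y => cut0 (y w1).re * cut0 (y w2).re * cut0 (y w3).re *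
    cut0 (y w4).re * cut0 (y w5).re
  have yH0 : ∀ y : C →⋆ₙₐ[ℂ] ℂ, y H0 = (p y : ℂ) := fun y => by
    simp only [hH0, map_mul y, char_cfc y h1sa continuous_cut0 cut0_zero,
      char_cfc y h2sa continuous_cut0 cut0_zero, char_cfc y h3sa continuous_cut0 cut0_zero,
      char_cfc y h4sa continuous_cut0 cut0_zero, char_cfc y h5sa continuous_cut0 cut0_zero, p]
    push_cast; ring
  have yc' : ∀ y : C →⋆ₙₐ[ℂ] ℂ, y c' ≠ 0 → p y = 1 := by
    intro y hy
    simp only [hc', map_mul y, char_cfc y h1sa continuous_cut1 cut1_zero,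
      char_cfc y h2sa continuous_cut1 cut1_zero, char_cfc y h3sa continuous_cut1 cut1_zero,
      char_cfc y h4sa continuous_cut1 cut1_zero, char_cfc y h5sa continuous_cut1 cut1_zero,
      ne_eq, mul_eq_zero, not_or, Complex.ofReal_eq_zero] at hy
    simp only [p, cut0_of_cut1 hy.1.1.1.1, cut0_of_cut1 hy.1.1.1.2, cut0_of_cut1 hy.1.1.2,
      cut0_of_cut1 hy.1.2, cut0_of_cut1 hy.2, mul_one]
  have p_abs : ∀ y, p y * p y ≤ 1 := fun y => by
    have a := cut0_nonneg
    have b := cut0_le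
    have h : p y ≤ 1 := mul_le_one₀ (mul_le_one₀ (mul_le_one₀ (mul_le_one₀ (b _) (a _) (b _))
      (a _) (b _)) (a _) (b _)) (a _) (b _)
    have h' : 0 ≤ p y := mul_nonneg (mul_nonneg (mul_nonneg (mul_nonneg (a _) (a _)) (a _)) (a _))
      (a _)
    exact mul_le_one₀ h h' h
  have zone : ∀ y, p y ≠ 0 → y c ≠ 0 ∧ y mc ≠ 0 ∧ (y d).re < 1 / 4 ∧ s / 2 < (y r).re ∧
      (y r).re / 2 < (y md).re := by
    intro y hy
    simp only [p, ne_eq, mul_eq_zero, not_or] at hy
    obtain ⟨⟨⟨⟨a1, a2⟩, a3⟩, a4⟩, a5⟩ := hy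
    have b1 := half_lt_of_cut0 a1
    have b2 := half_lt_of_cut0 a2
    have b3 := half_lt_of_cut0 a3
    have b4 := half_lt_of_cut0 a4
    have b5 := half_lt_of_cut0 a5
    rw [hw1, unitSq_apply, Complex.ofReal_re] at b1
    rw [hw2, unitSq_apply, Complex.ofReal_re] at b2
    rw [hw3, map_smul y, smul_eq_mul, Complex.re_ofReal_mul, inv_mul_eq_div, lt_div_iff₀ hs] at b3
    rw [hw4, map_sub y, map_smul y, char_cfc y h1sa continuous_cut0 cut0_zero,
      Complex.sub_re, Complex.ofReal_re, smul_eq_mul] at b4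
    simp only [Complex.mul_re, Complex.re_ofNat, Complex.im_ofNat, zero_mul, sub_zero] at b4
    rw [hw5, map_smul y, map_sub y, map_smul y, smul_eq_mul, Complex.re_ofReal_mul,
      inv_mul_eq_div, lt_div_iff₀ hs, Complex.sub_re, smul_eq_mul] at b5
    simp only [Complex.mul_re, Complex.re_ofNat, Complex.im_ofNat, zero_mul, sub_zero] at b5
    refine ⟨fun h => ?_, fun h => ?_, ?_, by linarith, by linarith⟩
    · rw [h] at b1; norm_num at b1
    · rw [h] at b2; norm_num at b2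
    · linarith [cut0_le (y w1).re]
  have yh1 : ∀ y : C →⋆ₙₐ[ℂ] ℂ,
      y h1 = (((Real.sqrt s)⁻¹ * (p y * isq (y w3).re) : ℝ) : ℂ) := fun y => by
    rw [hh1, map_smul y, map_mul y, yH0, char_cfc y h3sa continuous_isq isq_zero, smul_eq_mul]
    push_cast; ring
  have yid : ∀ y : C →⋆ₙₐ[ℂ] ℂ, y h1 * y h1 * y r = ((p y * p y : ℝ) : ℂ) := by
    intro y
    by_cases hp : p y = 0
    · simp [yh1, hp]
    obtain ⟨-, -, -, hr', -⟩ := zone y hp
    have e3 : (y w3).re = (y r).re / s := by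
      rw [hw3, map_smul y, smul_eq_mul, Complex.re_ofReal_mul, inv_mul_eq_div]
    have hg := isq_sq (t := (y w3).re) (by rw [e3, lt_div_iff₀ hs]; linarith)
    have hsq : (Real.sqrt s)⁻¹ * (Real.sqrt s)⁻¹ = s⁻¹ := by
      rw [← mul_inv, Real.mul_self_sqrt hs.le]
    rw [yh1, char_real y hr_sa, ← Complex.ofReal_mul, ← Complex.ofReal_mul]
    congr 1
    calc (Real.sqrt s)⁻¹ * (p y * isq (y w3).re) * ((Real.sqrt s)⁻¹ * (p y * isq (y w3).re)) *
          (y r).re
        = p y * p y * (isq (y w3).re * isq (y w3).re *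
            ((Real.sqrt s)⁻¹ * (Real.sqrt s)⁻¹ * (y r).re)) := by ring
      _ = p y * p y := by rw [hsq, inv_mul_eq_div, ← e3, hg, mul_one]
  -- images of the tested region
  have img : ∀ y z, Eig π ι y z → p y ≠ 0 → π n z ≠ 0 →
      ∃ μ, Eig π ι μ (π n z) ∧ μ c ≠ 0 ∧ p μ = 0 := by
    intro y z hz hp hnz
    obtain ⟨hyr, μ, hμ, hμval⟩ := S.map_eig hn hr hz hnz
    obtain ⟨-, hmc', -, hr', hmd'⟩ := zone y hp
    refine ⟨μ, hμ, ?_, ?_⟩
    · intro h
      have := hμval c mc hmc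
      rw [h, zero_mul] at this
      exact hmc' this.symm
    · by_contra hpμ
      obtain ⟨-, -, hd', -, -⟩ := zone μ hpμ
      have e := congrArg Complex.re (hμval d md hmd)
      rw [char_real y hr_sa, Complex.re_mul_ofReal] at e
      nlinarith
  have back : ∀ y z, Eig π ι y z → p y ≠ 0 → π (ι h1) (π (star n) z) = 0 := by
    intro y z hz hp
    by_cases hu : π (star n) z = 0
    · rw [hu, map_zero]
    obtain ⟨r', hr'⟩ := S.star_mul_self_mem (normalizer_star hn)
    obtain ⟨-, ν, hν, -⟩ := S.map_eig (normalizer_star hn) hr' hz hu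
    rw [hν]
    by_cases hpν : p ν = 0
    · simp [yh1, hpν]
    exfalso
    have hnu : π n (π (star n) z) ≠ 0 := by
      intro h
      apply hu
      rw [← inner_self_eq_zero (𝕜 := ℂ), inner_map, star_star, h, inner_zero_right]
    obtain ⟨μ, hμ, -, hpμ⟩ := img ν _ hν hpν hnu
    have hey : Eig π ι y (π n (π (star n) z)) := fun e => by
      rw [← map_mul_apply n (star n), show n * star n = ι r' by rw [hr', star_star], hz, map_smul,
        hz, smul_comm]
    have : μ = y := by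
      by_contra hne'
      exact hnu (inner_self_eq_zero.1 (inner_eq_zero_of_ne hμ hey hne'))
    exact hp (this ▸ hpμ)
  set α : ℂ := (((Real.sqrt 2)⁻¹ : ℝ) : ℂ) with hα
  have hα2 : α * α = 1 / 2 := by
    rw [hα, ← Complex.ofReal_mul, ← mul_inv, Real.mul_self_sqrt (by norm_num)]
    norm_num
  have hαn : ‖α‖ ^ 2 = 1 / 2 := by
    rw [sq, ← norm_mul, hα2]; norm_num
  have hαs : star α = α := Complex.conj_ofReal _
  set T := α • (ι H0 + n * ι h1) with hT
  have h0sa : star H0 = H0 := by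
    rw [hH0]
    simp only [star_mul, (cfcₙ_predicate cut0 _ : IsSelfAdjoint (cfcₙ cut0 _)).star_eq]
    ac_rfl
  have h1star : star h1 = h1 := by
    rw [hh1, star_smul, star_mul, h0sa, (cfcₙ_predicate isq w3).star_eq, Complex.star_def,
      Complex.conj_ofReal, mul_comm]
  have Tz : ∀ y z, Eig π ι y z → π T z = α • y H0 • z + α • y h1 • π n z := by
    intro y z hz
    rw [hT, map_smul π, map_add π, smul_apply, add_apply, map_mul_apply, hz, hz, map_smul,
      smul_add]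
  have Tsz : ∀ z, π (star T) z = α • π (ι H0) z + α • π (ι h1) (π (star n) z) := by
    intro z
    rw [hT, star_smul, hαs, star_add, star_mul, ← map_star ι, ← map_star ι, h0sa, h1star,
      map_smul π, map_add π, smul_apply, add_apply, map_mul_apply, smul_add]
  have TT : ∀ y z, Eig π ι y z → π (star T) (π T z) = ((p y * p y : ℝ) : ℂ) • z := by
    intro y z hz
    have x1 : y H0 • π (ι h1) (π (star n) z) = 0 := by
      by_cases hp : p y = 0
      · simp [yH0, hp]
      · rw [back y z hz hp, smul_zero]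
    have x2 : y h1 • π (ι H0) (π n z) = 0 := by
      by_cases hp : p y = 0
      · simp [yh1, hp]
      by_cases hnz : π n z = 0
      · simp [hnz]
      obtain ⟨μ, hμ, -, hpμ⟩ := img y z hz hp hnz
      simp [hμ H0, yH0, hpμ]
    have x3 : π (ι h1) (π (star n) (π n z)) = (y r * y h1) • z := by
      rw [← map_mul_apply (star n) n, ← hr, hz, map_smul, hz, smul_smul]
    rw [Tz y z hz, Tsz]
    simp only [map_add, map_smul, hz H0, x3, smul_add]
    have x1' : α • α • y H0 • π (ι h1) (π (star n) z) = 0 := by rw [x1, smul_zero, smul_zero]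
    have x2' : α • α • y h1 • π (ι H0) (π n z) = 0 := by rw [x2, smul_zero, smul_zero]
    rw [x1', x2', add_zero, zero_add]
    simp only [smul_smul, ← add_smul]
    congr 1
    calc α * (α * (y H0 * y H0)) + α * (α * (y h1 * (y r * y h1)))
        = α * α * (y H0 * y H0 + y h1 * y h1 * y r) := by ring
      _ = ((p y * p y : ℝ) : ℂ) := by rw [hα2, yid, yH0]; push_cast; ring
  have hTT : star T * T = ι (H0 * H0) := by
    refine S.ext_eig hξ hx fun y z hz => ?_
    rw [map_mul_apply, TT y z hz, hz, map_mul y, yH0]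
    norm_num
  have hTn : ‖T‖ ≤ 1 := by
    have hH : ‖H0‖ ≤ 1 := by
      have b : ∀ w : C, ‖cfcₙ cut0 w‖ ≤ 1 := fun w => norm_cfc_le_one cut0_nonneg cut0_le
      have m : ∀ {u v : C}, ‖u‖ ≤ 1 → ‖v‖ ≤ 1 → ‖u * v‖ ≤ 1 := fun hu hv =>
        (norm_mul_le _ _).trans (mul_le_one₀ hu (norm_nonneg _) hv)
      exact m (m (m (m (b w1) (b w2)) (b w3)) (b w4)) (b w5)
    have h2 : ‖T‖ * ‖T‖ ≤ 1 := by
      rw [← CStarRing.norm_star_mul_self, hTT]
      exact (NonUnitalStarAlgHom.norm_apply_le ι _).trans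
        ((norm_mul_le _ _).trans (mul_le_one₀ hH (norm_nonneg _) hH))
    nlinarith [norm_nonneg T]
  refine ⟨U * T, c', ⟨?_, ?_, (norm_mul_le U T).trans
    (mul_le_one₀ G.contraction (norm_nonneg T) hTn), ?_⟩, ?_⟩
  · have e1 : ∀ {w : C} {v : ℂ}, x w = v → v = 1 → (x w).re = 1 := fun h h' => by
      rw [h, h']; rfl
    have a1 : (x w1).re = 1 := by
      rw [hw1, unitSq_apply, Complex.ofReal_re,
        div_self (by rw [Ne, Complex.normSq_eq_zero]; exact G.at_base)]
    have a2 : (x w2).re = 1 := by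
      rw [hw2, unitSq_apply, Complex.ofReal_re,
        div_self (by rw [Ne, Complex.normSq_eq_zero]; exact hxmc)]
    have a3 : (x w3).re = 1 := by
      rw [hw3, map_smul x, smul_eq_mul, hxr, Complex.re_ofReal_mul, Complex.ofReal_re,
        inv_mul_cancel₀ hs.ne']
    have a4 : (x w4).re = 1 := by
      rw [hw4, map_sub x, map_smul x, hdx, smul_zero, sub_zero,
        char_cfc x h1sa continuous_cut0 cut0_zero, a1, cut0_one, Complex.ofReal_re]
    have a5 : (x w5).re = 1 := by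
      rw [hw5, map_smul x, map_sub x, map_smul x, hxmd, hxr, smul_eq_mul, Complex.re_ofReal_mul]
      simp only [smul_eq_mul, Complex.sub_re, Complex.mul_re, Complex.re_ofNat, Complex.im_ofNat,
        zero_mul, sub_zero, Complex.ofReal_re]
      field_simp
      ring
    simp [hc', map_mul x, char_cfc x h1sa continuous_cut1 cut1_zero,
      char_cfc x h2sa continuous_cut1 cut1_zero, char_cfc x h3sa continuous_cut1 cut1_zero,
      char_cfc x h4sa continuous_cut1 cut1_zero, char_cfc x h5sa continuous_cut1 cut1_zero,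
      a1, a2, a3, a4, a5, cut1_one]
  · intro y z hz
    obtain ⟨y₁, hy₁, hn₁⟩ := G.spread y z hz
    rw [star_mul, map_mul_apply]
    set v := π (star U) z
    have fin : ∀ w : H, ‖w‖ ^ 2 ≤ ‖v‖ ^ 2 → ‖α • w‖ ^ 2 ≤ (1 / 2) ^ (k + 1) * ‖z‖ ^ 2 := by
      intro w hw
      rw [norm_smul, mul_pow, hαn, pow_succ ((1 : ℝ) / 2) k]
      nlinarith [sq_nonneg ‖w‖]
    rw [Tsz]
    by_cases hp : p y₁ = 0
    · rw [hy₁ H0, yH0, hp]
      simp only [Complex.ofReal_zero, zero_smul, smul_zero, zero_add]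
      by_cases hu : π (star n) v = 0
      · refine ⟨y₁, fun e => by simp [hu], ?_⟩
        rw [hu, map_zero, smul_zero, norm_zero, zero_pow two_ne_zero]
        positivity
      obtain ⟨r', hr'⟩ := S.star_mul_self_mem (normalizer_star hn)
      obtain ⟨-, ν, hν, -⟩ := S.map_eig (normalizer_star hn) hr' hy₁ hu
      refine ⟨ν, fun e => by rw [hν h1, map_smul, map_smul, hν e]; module,
        fin _ ?_⟩
      have hνr : ν r = y₁ r' := by
        refine smul_left_injective ℂ hu ?_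
        show ν r • π (star n) v = y₁ r' • π (star n) v
        rw [← hν r, ← map_smul, ← hy₁ r', ← map_mul_apply, ← map_mul_apply, hr, hr', star_star]
        simp [mul_assoc, v]
      have e1 := norm_map_sq hr' hy₁
      rw [hν h1, norm_smul, mul_pow]
      have hyh : ν h1 = ((ν h1).re : ℂ) := char_real ν h1star
      have hyr' : y₁ r' = ((y₁ r').re : ℂ) := by rw [← hνr]; exact char_real ν hr_sa
      rw [hyr', ← Complex.ofReal_mul, Complex.ofReal_inj] at e1
      have e2 := yid ν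
      rw [hνr, hyr', hyh, ← Complex.ofReal_mul, ← Complex.ofReal_mul, Complex.ofReal_inj] at e2
      rw [hyh, Complex.norm_real, Real.norm_eq_abs, sq_abs, e1]
      calc (ν h1).re ^ 2 * ((y₁ r').re * ‖v‖ ^ 2) = p ν * p ν * ‖v‖ ^ 2 := by rw [← e2]; ring
        _ ≤ ‖v‖ ^ 2 := mul_le_of_le_one_left (sq_nonneg _) (p_abs ν)
    · rw [back y₁ v hy₁ hp, smul_zero, add_zero]
      refine ⟨y₁, fun e => by rw [hy₁ H0, map_smul, map_smul, hy₁ e]; module, fin _ ?_⟩
      rw [hy₁ H0, yH0, norm_smul, mul_pow, Complex.norm_real, Real.norm_eq_abs, sq_abs]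
      exact mul_le_of_le_one_left (sq_nonneg _) (by rw [sq]; exact p_abs y₁)
  all_goals intro y z hz hyc
  all_goals have hp1 := yc' y hyc
  all_goals have hp0 : p y ≠ 0 := by rw [hp1]; exact one_ne_zero
  all_goals
    have hdec : ∃ y₂, Eig π ι y₂ (α • y h1 • π n z) ∧ y₂ c ≠ 0 := by
      by_cases hnz : π n z = 0
      · exact ⟨y, fun e => by simp [hnz], (zone y hp0).1⟩
      obtain ⟨μ, hμ, hμc, -⟩ := img y z hz hp0 hnz
      exact ⟨μ, fun e => by rw [map_smul, map_smul, hμ e]; module, hμc⟩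
  all_goals obtain ⟨y₂, hy₂, hy₂c⟩ := hdec
  all_goals
    have he₁ : Eig π ι y (α • y H0 • z) := fun e => by
      rw [map_smul, map_smul, hz e]; module
  · rw [star_mul, map_mul_apply, map_mul_apply, Tz y z hz, map_add, map_add,
      G.isom y _ he₁ (zone y hp0).1, G.isom y₂ _ hy₂ hy₂c, ← Tz y z hz, TT y z hz, hp1]
    simp
  · exact ⟨y, α • y H0 • z, y₂, α • y h1 • π n z, he₁, (zone y hp0).1, hy₂, hy₂c,
      by rw [map_mul_apply, Tz y z hz, map_add]⟩

end Setting

end Vale.Agent.P070
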