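import Vale.Agent.P070.Eigen
import Vale.Agent.P070.Split

/-!
Splitting a node of a Glimm tree.
-/

namespace Vale.Agent.P070.Tree

open Set

universe u

variable {A : Type u} [NonUnitalCStarAlgebra A]

/-- Plateau around `s`. -/
noncomputable def wide (s r t : ℝ) : ℝ := cut0 (1 - |t - s| / r)

/-- Narrow bump around `s`. -/
noncomputable def narrow (s r t : ℝ) : ℝ := cut1 (1 - |t - s| / r)

/-- A function whose product with the identity is `wide s r`. -/
noncomputable def wideDiv (s r t : ℝ) : ℝ := wide s r t * t / max (t ^ 2) ((r / 2) ^ 2)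

theorem continuous_wide (s r : ℝ) : Continuous (wide s r) := continuous_cut0.comp (by fun_prop)

theorem continuous_narrow (s r : ℝ) : Continuous (narrow s r) := continuous_cut1.comp (by fun_prop)

theorem continuous_wideDiv (s : ℝ) {r : ℝ} (hr : 0 < r) : Continuous (wideDiv s r) := by
  refine ((continuous_wide s r).mul continuous_id).div (by fun_prop) fun t => ?_
  exact (lt_max_of_lt_right (by positivity)).ne'

theorem wide_supp {s r t : ℝ} (hr : 0 < r) (h : wide s r t ≠ 0) : |t - s| < r / 2 := by
  have h' := half_lt_of_cut0 h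
  have : |t - s| / r < 1 / 2 := by linarith
  rw [div_lt_iff₀ hr] at this
  linarith

theorem wide_zero {s r : ℝ} (hr : 0 < r) (hrs : r ≤ |s|) : wide s r 0 = 0 := by
  by_contra h
  have := wide_supp hr h
  rw [zero_sub, abs_neg] at this
  linarith

theorem narrow_wide (s r t : ℝ) : wide s r t * narrow s r t = narrow s r t := by
  by_cases h : narrow s r t = 0
  · rw [h, mul_zero]
  · rw [show wide s r t = 1 from cut0_of_cut1 h, one_mul]

theorem narrow_zero {s r : ℝ} (hr : 0 < r) (hrs : r ≤ |s|) : narrow s r 0 = 0 := by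
  rw [← narrow_wide, wide_zero hr hrs, zero_mul]

theorem mul_wideDiv {s r : ℝ} (hr : 0 < r) (hrs : r ≤ |s|) (t : ℝ) :
    t * wideDiv s r t = wide s r t := by
  by_cases h : wide s r t = 0
  · simp [wideDiv, h]
  have h1 := wide_supp hr h
  have h2 : r / 2 < |t| := by
    have := abs_sub_abs_le_abs_sub s t
    rw [abs_sub_comm] at h1
    linarith
  have h3 : (r / 2) ^ 2 ≤ t ^ 2 := by
    rw [← sq_abs t]; exact pow_le_pow_left₀ (by positivity) h2.le 2
  have ht : t ≠ 0 := by
    rintro rfl
    simp at h2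
    linarith
  rw [wideDiv, max_eq_left h3]
  field_simp

theorem norm_cfc_le {y : A} {f : ℝ → ℝ} (h0 : ∀ t, 0 ≤ f t) (h1 : ∀ t, f t ≤ 1) :
    ‖cfcₙ f y‖ ≤ 1 :=
  norm_cfcₙ_le fun t _ => by rw [Real.norm_eq_abs, abs_of_nonneg (h0 t)]; exact h1 t

/-- A node: a self-adjoint contraction `e` acting as a unit on a nonzero self-adjoint `g`. -/
structure Node (A : Type u) [NonUnitalCStarAlgebra A] where
  e : A
  g : A
  e_sa : IsSelfAdjoint e
  g_sa : IsSelfAdjoint g
  e_le : ‖e‖ ≤ 1
  g_ne : g ≠ 0
  unit_g : e * g = g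

/-- No nonzero projection cuts the algebra down to the scalars. -/
def NoMinimal (A : Type u) [NonUnitalCStarAlgebra A] : Prop :=
  ¬ ∃ p : A, p ≠ 0 ∧ IsSelfAdjoint p ∧ p * p = p ∧ ∀ a, ∃ r : ℂ, p * a * p = r • p

/-- A node made from one spectral point. -/
theorem exists_node_point {y : A} (hy : IsSelfAdjoint y) {s r : ℝ} (hs : s ∈ quasispectrum ℝ y)
    (hr : 0 < r) (hrs : r ≤ |s|) :
    ∃ N : Node A, N.e = cfcₙ (wide s r) y := by
  refine ⟨⟨_, cfcₙ (narrow s r) y, cfcₙ_predicate _ _, cfcₙ_predicate _ _,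
    norm_cfc_le (fun _ => cut0_nonneg _) (fun _ => cut0_le _), ?_, ?_⟩, rfl⟩
  · intro h
    have hmem := norm_apply_le_norm_cfcₙ (narrow s r) y hs (continuous_narrow s r).continuousOn
      (narrow_zero hr hrs) hy
    rw [h, norm_zero, show narrow s r s = 1 by simp [narrow, cut1_one]] at hmem
    norm_num at hmem
  · show cfcₙ (wide s r) y * cfcₙ (narrow s r) y = cfcₙ (narrow s r) y
    rw [← cfcₙ_mul (wide s r) (narrow s r) y (continuous_wide s r).continuousOn
      (wide_zero hr hrs) (continuous_narrow s r).continuousOn (narrow_zero hr hrs)]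
    exact cfcₙ_congr fun t _ => narrow_wide s r t

/-- The plateau stays under a unit of `y`. -/
theorem unit_wide {e y : A} (hy : IsSelfAdjoint y) (he : e * y = y) {s r : ℝ} (hr : 0 < r)
    (hrs : r ≤ |s|) : e * cfcₙ (wide s r) y = cfcₙ (wide s r) y := by
  have h : cfcₙ (wide s r) y = y * cfcₙ (wideDiv s r) y := by
    rw [cfcₙ_congr (f := wide s r) (g := fun t => t * wideDiv s r t) fun t _ =>
        (mul_wideDiv hr hrs t).symm,
      cfcₙ_mul (fun t : ℝ => t) (wideDiv s r) y continuous_id.continuousOn rfl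
        (continuous_wideDiv s hr).continuousOn (by simp [wideDiv]),
      cfcₙ_id' ℝ y hy]
  rw [h, ← mul_assoc, he]

/-- Every node splits into two orthogonal nodes below it. -/
theorem exists_split (hA : NoMinimal A) (N : Node A) :
    ∃ N₀ N₁ : Node A, N.e * N₀.e = N₀.e ∧ N.e * N₁.e = N₁.e ∧ N₀.e * N₁.e = 0 := by
  by_cases hex : ∃ x : A, IsSelfAdjoint x ∧ ∃ s ∈ quasispectrum ℝ (N.g * x * N.g),
      ∃ t ∈ quasispectrum ℝ (N.g * x * N.g), s ≠ 0 ∧ t ≠ 0 ∧ s ≠ t
  · obtain ⟨x, hx, s, hs, t, ht, hs0, ht0, hst⟩ := hex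
    set y := N.g * x * N.g with hydef
    have hy : IsSelfAdjoint y := by
      show star y = y
      rw [hydef, star_mul, star_mul, N.g_sa.star_eq, hx.star_eq, mul_assoc]
    have hey : N.e * y = y := by rw [hydef, ← mul_assoc, ← mul_assoc, N.unit_g]
    set r := min (min |s| |t|) |s - t| with hr
    have hr0 : 0 < r := by
      simp only [hr, lt_min_iff]
      exact ⟨⟨abs_pos.2 hs0, abs_pos.2 ht0⟩, abs_pos.2 (sub_ne_zero.2 hst)⟩
    have hrs : r ≤ |s| := (min_le_left _ _).trans (min_le_left _ _)
    have hrt : r ≤ |t| := (min_le_left _ _).trans (min_le_right _ _)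
    obtain ⟨N₀, h₀⟩ := exists_node_point hy hs hr0 hrs
    obtain ⟨N₁, h₁⟩ := exists_node_point hy ht hr0 hrt
    refine ⟨N₀, N₁, by rw [h₀]; exact unit_wide hy hey hr0 hrs,
      by rw [h₁]; exact unit_wide hy hey hr0 hrt, ?_⟩
    rw [h₀, h₁, ← cfcₙ_mul (wide s r) (wide t r) y (continuous_wide s r).continuousOn
      (wide_zero hr0 hrs) (continuous_wide t r).continuousOn (wide_zero hr0 hrt)]
    refine (cfcₙ_congr (g := fun _ => 0) fun u _ => ?_).trans (cfcₙ_zero ℝ y)
    by_contra h
    obtain ⟨h1, h2⟩ := mul_ne_zero_iff.1 h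
    have h1 := wide_supp hr0 h1
    have h2 := wide_supp hr0 h2
    have h3 := abs_sub_le s u t
    rw [abs_sub_comm s u] at h3
    linarith [min_le_right (min |s| |t|) |s - t|]
  · exfalso
    push Not at hex
    have key : ∀ x, IsSelfAdjoint x →
        ∃ t : ℂ, (N.g * x * N.g) * (N.g * x * N.g) = t • (N.g * x * N.g) := by
      intro x hx
      set y := N.g * x * N.g with hydef
      have hy : IsSelfAdjoint y := by
        show star y = y
        rw [hydef, star_mul, star_mul, N.g_sa.star_eq, hx.star_eq, mul_assoc]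
      by_cases h : ∃ t ∈ quasispectrum ℝ y, t ≠ 0
      · obtain ⟨t, ht, ht0⟩ := h
        refine ⟨(t : ℂ), ?_⟩
        have e : cfcₙ (fun u : ℝ => u * u) y = cfcₙ (fun u : ℝ => t * u) y := by
          refine cfcₙ_congr fun u hu => ?_
          by_cases hu0 : u = 0
          · simp [hu0]
          · rw [show u = t by by_contra hne; exact hne (hex x hx u hu t ht hu0 ht0)]
        rw [cfcₙ_mul (fun u : ℝ => u) (fun u : ℝ => u) y, cfcₙ_const_mul t (fun u : ℝ => u) y,
          cfcₙ_id' ℝ y hy] at e
        rw [e, Complex.coe_smul]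
      · push Not at h
        refine ⟨0, ?_⟩
        have e : cfcₙ (fun u : ℝ => u) y = cfcₙ (fun _ : ℝ => (0 : ℝ)) y :=
          cfcₙ_congr fun u hu => h u hu
        rw [cfcₙ_id' ℝ y hy] at e
        replace e := e.trans (cfcₙ_zero ℝ y)
        rw [e, mul_zero, smul_zero]
    set y := N.g * N.g * N.g with hydef
    obtain ⟨t, ht⟩ := key N.g N.g_sa
    rw [← hydef] at ht
    have hy : IsSelfAdjoint y := by
      show star y = y
      rw [hydef, star_mul, star_mul, N.g_sa.star_eq, mul_assoc]
    have hg : N.g * N.g ≠ 0 := fun h => N.g_ne (CStarRing.star_mul_self_eq_zero_iff _ |>.1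
      (by rw [N.g_sa.star_eq, h]))
    have hy0 : y ≠ 0 := by
      intro h
      refine hg (CStarRing.star_mul_self_eq_zero_iff _ |>.1 ?_)
      rw [star_mul, N.g_sa.star_eq, ← mul_assoc, show N.g * N.g * N.g = y from rfl, h, zero_mul]
    have ht0 : t ≠ 0 := by
      rintro rfl
      exact hy0 (CStarRing.star_mul_self_eq_zero_iff _ |>.1 (by rw [hy.star_eq, ht, zero_smul]))
    have hts : star t = t := by
      have h := congrArg star ht
      rw [star_mul, star_smul, hy.star_eq, ht] at h
      exact (smul_left_injective ℂ hy0 h).symm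
    set p := t⁻¹ • y with hpdef
    have hp : IsSelfAdjoint p := by
      show star p = p
      rw [hpdef, star_smul, hy.star_eq, star_inv₀, hts]
    have hpp : p * p = p := by
      rw [hpdef, smul_mul_smul_comm, ht, smul_smul]
      congr 1
      field_simp
    have hp0 : p ≠ 0 := smul_ne_zero (inv_ne_zero ht0) hy0
    clear_value p
    have hsa : ∀ a, IsSelfAdjoint a → ∃ r : ℂ, p * a * p = r • p := by
      intro a ha
      set w := p * a * p with hwdef
      set q := t⁻¹ • (N.g * N.g) with hq
      have hpq : p = N.g * q := by rw [hpdef, hq, mul_smul_comm, ← mul_assoc]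
      have hqp : p = q * N.g := by rw [hpdef, hq, smul_mul_assoc]
      have hform : ∀ z, p * z * p = N.g * (q * z * q) * N.g := fun z => by
        conv_lhs => arg 2; rw [hqp]
        rw [hpq]
        simp only [mul_assoc]
      have hq' : IsSelfAdjoint q := by
        show star q = q
        rw [hq, star_smul, star_mul, N.g_sa.star_eq, star_inv₀, hts]
      have conj : ∀ z, IsSelfAdjoint z →
          ∃ s : ℂ, (p * z * p) * (p * z * p) = s • (p * z * p) := by
        intro z hz
        rw [hform]
        exact key _ (by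
          show star (q * z * q) = q * z * q
          rw [star_mul, star_mul, hq'.star_eq, hz.star_eq, mul_assoc])
      have hpw : p * w = w := by rw [hwdef, ← mul_assoc, ← mul_assoc, hpp]
      have hwp : w * p = w := by rw [hwdef, mul_assoc, hpp]
      have hw : IsSelfAdjoint w := by
        show star w = w
        rw [hwdef, star_mul, star_mul, hp.star_eq, ha.star_eq, mul_assoc]
      obtain ⟨s, hs⟩ := conj a ha
      rw [← hwdef] at hs
      by_cases hw0 : w = 0
      · exact ⟨0, by rw [hw0, zero_smul]⟩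
      have hs0 : s ≠ 0 := by
        rintro rfl
        exact hw0 (CStarRing.star_mul_self_eq_zero_iff _ |>.1 (by rw [hw.star_eq, hs, zero_smul]))
      have hss : star s = s := by
        have h := congrArg star hs
        rw [star_mul, star_smul, hw.star_eq, hs] at h
        exact (smul_left_injective ℂ hw0 h).symm
      obtain ⟨t', ht'⟩ := conj (w + s • p) (hw.add (IsSelfAdjoint.smul hss hp))
      have e1 : p * (w + s • p) * p = w + s • p := by
        rw [mul_add, add_mul, hpw, hwp, mul_smul_comm, hpp, smul_mul_assoc, hpp]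
      rw [e1, add_mul, mul_add, mul_add, hs, smul_mul_assoc, mul_smul_comm, hwp,
        smul_mul_assoc, mul_smul_comm, hpw, hpp, smul_smul, smul_add, smul_smul] at ht'
      have e2 : (3 * s - t') • w = (t' * s - s * s) • p := by
        linear_combination (norm := module) ht'
      by_cases h3 : 3 * s - t' = 0
      · rw [h3, zero_smul, eq_comm, smul_eq_zero] at e2
        rcases e2 with e2 | e2
        · refine (hs0 ?_).elim
          have : 2 * s * s = 0 := by linear_combination e2 + s * h3
          simpa using this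
        · exact (hp0 e2).elim
      · exact ⟨(3 * s - t')⁻¹ * (t' * s - s * s), by rw [← smul_smul, ← e2, inv_smul_smul₀ h3]⟩
    refine hA ⟨p, hp0, hp, hpp, fun a => ?_⟩
    obtain ⟨r₁, h₁⟩ := hsa _ (realPart a).2
    obtain ⟨r₂, h₂⟩ := hsa _ (imaginaryPart a).2
    refine ⟨r₁ + Complex.I * r₂, ?_⟩
    conv_lhs => rw [← realPart_add_I_smul_imaginaryPart a]
    rw [mul_add, add_mul, mul_smul_comm, smul_mul_assoc, h₁, h₂, smul_smul, add_smul]

/-- There is a node. -/
theorem exists_node [Nontrivial A] : Nonempty (Node A) := by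
  obtain ⟨a, ha⟩ := exists_ne (0 : A)
  have hy : IsSelfAdjoint (star a * a) := IsSelfAdjoint.star_mul_self a
  by_contra h
  have hz : ∀ u ∈ quasispectrum ℝ (star a * a), u = 0 := fun u hu => by
    by_contra hu0
    exact h (exists_node_point hy hu (abs_pos.2 hu0) le_rfl).nonempty
  have e : cfcₙ (fun u : ℝ => u) (star a * a) = cfcₙ (fun _ : ℝ => (0 : ℝ)) (star a * a) :=
    cfcₙ_congr hz
  rw [cfcₙ_id' ℝ _ hy] at e
  replace e := e.trans (cfcₙ_zero ℝ _)
  exact ha (CStarRing.star_mul_self_eq_zero_iff a |>.1 e)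

end Vale.Agent.P070.Tree
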