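import Vale.Agent.P070.States

/-!
The representation of a given pure state.
-/

namespace Vale.Agent.P070.Small

open scoped InnerProductSpace ComplexOrder
open Set

universe u

variable {A : Type u} [NonUnitalCStarAlgebra A]

/-- A pure state that is one somewhere on the unit ball is a vector state of an irreducible
representation. The conclusion is transported by `Q`. -/
theorem exists_irrep_state {φ : WeakDual ℂ (Unitization ℂ A)}
    (hφ : φ ∈ extremePoints ℝ (stateSet (Unitization ℂ A))) {b : A} (hb : ‖b‖ ≤ 1)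
    (hφb : φ (b : Unitization ℂ A) = 1) {Q : Prop}
    (hQ : ∀ (K : Type u) [NormedAddCommGroup K] [InnerProductSpace ℂ K] [CompleteSpace K]
      (ρ : A →⋆ₙₐ[ℂ] (K →L[ℂ] K)) (ξ : K), IsIrrRep ρ → ‖ξ‖ = 1 →
        (∀ a, ⟪ξ, ρ a ξ⟫_ℂ = φ (a : Unitization ℂ A)) → Q) : Q := by
  letI : PartialOrder (Unitization ℂ A) := CStarAlgebra.spectralOrder _
  have : StarOrderedRing (Unitization ℂ A) := CStarAlgebra.spectralOrderedRing _
  set f := statePos hφ.1
  set π := f.gnsStarAlgHom
  set ξ : f.GNS := ((f.toPreGNS 1 : f.PreGNS) : f.GNS) with hξdef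
  have happ : ∀ b, π b ξ = ((f.toPreGNS b : f.PreGNS) : f.GNS) := fun b => by
    simp [π, hξdef, PositiveLinearMap.leftMulMapPreGNS_apply]
  have hξ : ∀ b, ⟪ξ, π b ξ⟫_ℂ = φ b := fun b => by
    rw [happ, hξdef, UniformSpace.Completion.inner_coe, PositiveLinearMap.preGNS_inner_def]
    simp [f, statePos_apply]
  have hnorm : ‖ξ‖ = 1 := by
    have h := hξ 1
    rw [map_one π, hφ.1.2, one_apply_eq_self, inner_self_eq_norm_sq_to_K] at h
    have h' : ‖ξ‖ ^ 2 = 1 := by simpa [← Complex.ofReal_pow] using h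
    nlinarith [norm_nonneg ξ]
  have hcyc : DenseRange fun b => π b ξ := by
    simp only [happ]
    exact UniformSpace.Completion.denseRange_coe.comp f.toPreGNS.surjective.denseRange
      (UniformSpace.Completion.continuous_coe _)
  set ρ : A →⋆ₙₐ[ℂ] (f.GNS →L[ℂ] f.GNS) :=
    π.toNonUnitalStarAlgHom.comp (Unitization.inrNonUnitalStarAlgHom ℂ A) with hρ
  have hρapp : ∀ a, ρ a = π (a : Unitization ℂ A) := fun a => rfl
  refine hQ f.GNS ρ ξ ⟨?_, ?_⟩ hnorm fun a => hξ _
  · intro h0
    have h := (hξ (b : Unitization ℂ A)).trans hφb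
    rw [← hρapp, h0] at h
    simp at h
  · intro M hM hinv
    refine invariant_trivial π ξ hφ hξ hcyc M hM fun b v hv => ?_
    rw [show b = algebraMap ℂ (Unitization ℂ A) b.fst + (b.snd : Unitization ℂ A) by
      ext <;> simp [Unitization.algebraMap_eq_inl]]
    rw [map_add, AlgHomClass.commutes, add_apply,
      Algebra.algebraMap_eq_smul_one, smul_apply, one_apply_eq_self]
    exact M.add_mem (M.smul_mem _ hv) (hinv b.snd v hv)

end Vale.Agent.P070.Small
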