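import Vale.Agent.P070.Glimm
import Vale.Agent.P070.PureState

/-!
A pure state that is pure on every member of a chain of subalgebras, and the size of the space.
-/

namespace Vale.Agent.P070.Small

open scoped InnerProductSpace ComplexOrder
open Set InnerProductSpace

universe u

variable {A : Type u} [NonUnitalCStarAlgebra A]

/-- Values of a functional on a subalgebra. -/
noncomputable def resState (D : NonUnitalStarSubalgebra ℂ A) (φ : WeakDual ℂ (Unitization ℂ A)) : D → ℂ :=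
  fun a => φ ((a : A) : Unitization ℂ A)

theorem continuous_resState (D : NonUnitalStarSubalgebra ℂ A) : Continuous (resState D) :=
  continuous_pi fun a => WeakDual.eval_continuous _

variable {I : Type} [LinearOrder I] [WellFoundedLT I]

/-- A state that is extreme on every member of the chain. -/
theorem exists_chain_state (D : I → NonUnitalStarSubalgebra ℂ A) (hmono : Monotone D)
    [Nonempty I] (hdense : Dense (⋃ i, (D i : Set A))) {b : A} (hb : ‖b‖ = 1)
    (hb' : ∃ a, b = star a * a) (hmem : ∀ i, b ∈ D i) :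
    ∃ φ ∈ extremePoints ℝ (stateSet (Unitization ℂ A)), φ (b : Unitization ℂ A) = 1 ∧
      ∀ i, resState (D i) φ ∈ extremePoints ℝ (resState (D i) '' stateSet (Unitization ℂ A)) := by
  classical
  set S := stateSet (Unitization ℂ A) with hS
  obtain ⟨ψ, hψ⟩ : ∃ ψ : ∀ i, D i → ℂ, ∀ i, ψ i = Classical.epsilon fun χ =>
      χ ∈ extremePoints ℝ (resState (D i) '' {φ | φ ∈ S ∧ φ (b : Unitization ℂ A) = 1 ∧
        ∀ j, j < i → resState (D j) φ = ψ j}) :=
    ⟨wellFounded_lt.fix fun i (ih : ∀ j, j < i → (D j → ℂ)) => Classical.epsilon fun χ =>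
      χ ∈ extremePoints ℝ (resState (D i) '' {φ | φ ∈ S ∧ φ (b : Unitization ℂ A) = 1 ∧
        ∀ j, ∀ h : j < i, resState (D j) φ = ih j h}),
      fun i => WellFounded.fix_eq _ _ i⟩
  let C : I → Set (WeakDual ℂ (Unitization ℂ A)) := fun i =>
    {φ | φ ∈ S ∧ φ (b : Unitization ℂ A) = 1 ∧ ∀ j, j ≤ i → resState (D j) φ = ψ j}
  have cl : ∀ p : I → Prop, IsClosed {φ : WeakDual ℂ (Unitization ℂ A) |
      φ ∈ S ∧ φ (b : Unitization ℂ A) = 1 ∧ ∀ j, p j → resState (D j) φ = ψ j} := by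
    intro p
    refine IsClosed.inter isClosed_stateSet (IsClosed.inter
      (isClosed_eq (WeakDual.eval_continuous _) continuous_const) ?_)
    show IsClosed {φ : WeakDual ℂ (Unitization ℂ A) | ∀ j, p j → resState (D j) φ = ψ j}
    simp only [ofPred_forall]
    exact isClosed_iInter fun j => isClosed_iInter fun _ =>
      isClosed_eq (continuous_resState _) continuous_const
  have cC : ∀ i, IsCompact (C i) := fun i =>
    isCompact_stateSet.of_isClosed_subset (cl _) fun φ h => h.1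
  have dir : ∀ {i j}, i ≤ j → C j ⊆ C i := fun hij φ h =>
    ⟨h.1, h.2.1, fun k hk => h.2.2 k (hk.trans hij)⟩
  have main : ∀ i, (C i).Nonempty ∧ ψ i ∈ extremePoints ℝ (resState (D i) '' S) := by
    intro i
    induction i using WellFoundedLT.induction with
    | ind i ih =>
    set G := {φ | φ ∈ S ∧ φ (b : Unitization ℂ A) = 1 ∧ ∀ j, j < i → resState (D j) φ = ψ j}
      with hG
    have hne : G.Nonempty := by
      by_cases h : Nonempty {j // j < i}
      · obtain ⟨φ, hφ⟩ := IsCompact.nonempty_iInter_of_directed_nonempty_isCompact_isClosed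
          (fun j : {j // j < i} => C j)
          (fun j k => ⟨⟨max j.1 k.1, max_lt j.2 k.2⟩, dir (le_max_left _ _), dir (le_max_right _ _)⟩)
          (fun j => (ih j j.2).1) (fun j => cC j) (fun j => cl _)
        rw [mem_iInter] at hφ
        obtain ⟨j⟩ := h
        exact ⟨φ, (hφ j).1, (hφ j).2.1, fun k hk => (hφ ⟨k, hk⟩).2.2 k le_rfl⟩
      · obtain ⟨φ, hφ, hφb⟩ := exists_state_norm b hb hb'
        exact ⟨φ, hφ, hφb, fun j hj => (h ⟨⟨j, hj⟩⟩).elim⟩
    have hGc : IsCompact (resState (D i) '' G) :=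
      (isCompact_stateSet.of_isClosed_subset (cl _) fun φ h => h.1).image (continuous_resState _)
    have hψi : ψ i ∈ extremePoints ℝ (resState (D i) '' G) := by
      rw [hψ i]
      exact Classical.epsilon_spec
        (p := fun χ => χ ∈ extremePoints ℝ (resState (D i) '' G))
        (hGc.extremePoints_nonempty (hne.image _))
    obtain ⟨φ, hφ, hφe⟩ := hψi.1
    refine ⟨⟨φ, hφ.1, hφ.2.1, fun j hj => ?_⟩, ?_⟩
    · rcases eq_or_lt_of_le hj with rfl | h
      · exact hφe
      · exact hφ.2.2 j h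
    refine IsExtreme.extremePoints_subset_extremePoints
      ⟨image_mono fun x hx => hx.1, ?_⟩ hψi
    rintro _ ⟨x1, hx1, rfl⟩ _ ⟨x2, hx2, rfl⟩ _ ⟨x, hx, rfl⟩ ⟨s, t, hs, ht, hst, heq⟩
    refine ⟨x1, ⟨hx1, ?_, fun j hj => ?_⟩, rfl⟩
    · exact eq_one_of_combo
        ((hx1.1 _).trans (by rw [Unitization.norm_inr, hb]))
        ((hx2.1 _).trans (by rw [Unitization.norm_inr, hb])) hs ht hst
        ((congrFun heq ⟨b, hmem i⟩).trans hx.2.1)
    · refine (ih j hj).2.2 ⟨x1, hx1, rfl⟩ ⟨x2, hx2, rfl⟩ ⟨s, t, hs, ht, hst, ?_⟩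
      rw [← hx.2.2 j hj]
      exact funext fun a => congrFun heq ⟨a, hmono hj.le a.2⟩
  obtain ⟨φ, hφ⟩ := IsCompact.nonempty_iInter_of_directed_nonempty_isCompact_isClosed C
    (fun j k => ⟨max j k, dir (le_max_left _ _), dir (le_max_right _ _)⟩)
    (fun j => (main j).1) cC fun j => cl _
  rw [mem_iInter] at hφ
  have hres : ∀ i, resState (D i) φ = ψ i := fun i => (hφ i).2.2 i le_rfl
  refine ⟨φ, ⟨(hφ (Classical.arbitrary I)).1, ?_⟩, (hφ (Classical.arbitrary I)).2.1,
    fun i => hres i ▸ (main i).2⟩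
  rintro x1 hx1 x2 hx2 ⟨s, t, hs, ht, hst, heq⟩
  have key : ∀ a : A, x1 (a : Unitization ℂ A) = φ (a : Unitization ℂ A) := by
    intro a
    refine congrFun (Continuous.ext_on (f := fun a : A => x1 (a : Unitization ℂ A))
      (g := fun a : A => φ (a : Unitization ℂ A)) hdense ?_ ?_ ?_) a
    · exact (map_continuous (WeakDual.toStrongDual x1)).comp (Unitization.isometry_inr).continuous
    · exact (map_continuous (WeakDual.toStrongDual φ)).comp (Unitization.isometry_inr).continuous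
    intro a ha
    obtain ⟨i, hi⟩ := mem_iUnion.1 ha
    have h := (main i).2.2 ⟨x1, hx1, rfl⟩ ⟨x2, hx2, rfl⟩ ⟨s, t, hs, ht, hst, by
      rw [← hres i, ← heq]; rfl⟩
    exact (congrFun h ⟨a, hi⟩).trans (congrFun (hres i) ⟨a, hi⟩).symm
  refine ContinuousLinearMap.ext fun z => ?_
  show x1 z = φ z
  rw [show z = z.fst • (1 : Unitization ℂ A) + (z.snd : Unitization ℂ A) by ext <;> simp,
    map_add, map_add, map_smul, map_smul, key, hx1.2, (hφ (Classical.arbitrary I)).1.2]

variable {H : Type u} [NormedAddCommGroup H] [InnerProductSpace ℂ H] [CompleteSpace H]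
variable {π : A →⋆ₙₐ[ℂ] (H →L[ℂ] H)}

/-- Every irreducible representation of the subalgebra acts on a small space. -/
def SmallDual (D : NonUnitalStarSubalgebra ℂ A) : Prop :=
  ∀ (K : Type u) [NormedAddCommGroup K] [InnerProductSpace ℂ K] [CompleteSpace K]
    (ρ : D →⋆ₙₐ[ℂ] (K →L[ℂ] K)), (∃ a v, ρ a v ≠ 0) →
      (∀ M : Submodule ℂ K, IsClosed (M : Set K) → (∀ a, ∀ v ∈ M, ρ a v ∈ M) → M = ⊥ ∨ M = ⊤) →
      ∃ S : Set K, Dense S ∧ Cardinal.mk S < Cardinal.continuum

/-- The cyclic piece of an extreme restriction is irreducible, hence small. -/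
theorem exists_piece (D : NonUnitalStarSubalgebra ℂ A) (hD : SmallDual D) {ξ : H} (hξ : ‖ξ‖ = 1)
    {b : A} (hbD : b ∈ D) (hbξ : π b ξ = ξ)
    (hext : (fun a : D => ⟪ξ, π a ξ⟫_ℂ) ∈
      extremePoints ℝ (resState D '' stateSet (Unitization ℂ A))) :
    ∃ S : Set H, Cardinal.mk S < Cardinal.continuum ∧ ∀ a ∈ D, π a ξ ∈ closure S := by
  let K : Submodule ℂ H :=
    { carrier := closure (range fun a : D => π a ξ)
      add_mem' := fun h1 h2 => map_mem_closure₂ continuous_add h1 h2 (by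
        rintro _ ⟨a, rfl⟩ _ ⟨c, rfl⟩
        exact ⟨a + c, by simp [map_add π]⟩)
      zero_mem' := subset_closure ⟨0, by simp [map_zero π]⟩
      smul_mem' := fun r v h => map_mem_closure (continuous_const_smul r) h (by
        rintro _ ⟨a, rfl⟩
        exact ⟨r • a, by simp [map_smul π]⟩) }
  have hKcl : IsClosed (K : Set H) := isClosed_closure
  have : CompleteSpace K := hKcl.completeSpace_coe
  have hξK : ξ ∈ K := subset_closure ⟨⟨b, hbD⟩, hbξ⟩
  have hinv : ∀ (a : D), ∀ v ∈ K, π a v ∈ K := fun a v hv =>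
    map_mem_closure (π (a : A)).continuous hv (by
      rintro _ ⟨c, rfl⟩
      exact ⟨a * c, map_mul_apply (a : A) (c : A) ξ⟩)
  let ρ : D →⋆ₙₐ[ℂ] (K →L[ℂ] K) :=
    { toFun := fun a => ((π (a : A)).comp K.subtypeL).codRestrict K fun v => hinv a v v.2
      map_smul' := fun r a => by ext v; simp [map_smul π]; rfl
      map_zero' := by ext v; simp [map_zero π]
      map_add' := fun a c => by ext v; simp [map_add π]; rfl
      map_mul' := fun a c => by ext v; simp [map_mul π]; rfl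
      map_star' := fun a => by
        rw [ContinuousLinearMap.star_eq_adjoint, ContinuousLinearMap.eq_adjoint_iff]
        intro v w
        show ⟪π (star (a : A)) (v : H), (w : H)⟫_ℂ = ⟪(v : H), π (a : A) (w : H)⟫_ℂ
        rw [inner_map, star_star] }
  have hρ : ∀ a (v : K), (ρ a v : H) = π (a : A) (v : H) := fun a v => rfl
  have hK : ∀ M : Submodule ℂ K, IsClosed (M : Set K) → (∀ a, ∀ v ∈ M, ρ a v ∈ M) →
      M = ⊥ ∨ M = ⊤ := by
    intro M hM hMinv
    set M' := M.map K.subtype with hM'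
    have hM'cl : IsClosed (M' : Set H) := by
      rw [hM', Submodule.map_coe]
      exact hKcl.isClosedEmbedding_subtypeVal.isClosedMap _ hM
    have : CompleteSpace M' := hM'cl.completeSpace_coe
    have hM'K : M' ≤ K := Submodule.map_subtype_le K M
    have hM'inv : ∀ (a : D), ∀ v ∈ M', π a v ∈ M' := by
      rintro a _ ⟨v, hv, rfl⟩
      exact ⟨ρ a v, hMinv a v hv, hρ a v⟩
    have hperp : ∀ (a : D), ∀ v ∈ M'ᗮ, π a v ∈ M'ᗮ := by
      intro a v hv
      rw [Submodule.mem_orthogonal] at hv ⊢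
      intro w hw
      have h : ⟪π ((star a : D) : A) w, v⟫_ℂ = 0 := hv _ (hM'inv (star a) w hw)
      rwa [inner_map, show star ((star a : D) : A) = (a : A) by simp] at h
    set u := M'.starProjection ξ with hu
    set v := ξ - u with hv
    have huM : u ∈ M' := M'.starProjection_apply_mem ξ
    have hvM : v ∈ M'ᗮ := M'.sub_starProjection_mem_orthogonal ξ
    have ortho : ∀ w ∈ K, (∀ a : D, ⟪w, π a ξ⟫_ℂ = 0) → w = 0 := by
      intro w hw h
      have h' : ∀ z ∈ closure (range fun a : D => π a ξ), ⟪w, z⟫_ℂ = 0 :=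
        closure_minimal (t := {z | ⟪w, z⟫_ℂ = 0}) (by rintro _ ⟨a, rfl⟩; exact h a)
          (isClosed_eq (by fun_prop) continuous_const)
      exact inner_self_eq_zero.1 (h' w hw)
    have top_of_mem : ξ ∈ M' → M = ⊤ := by
      intro h
      refine Submodule.eq_top_iff'.2 fun z => ?_
      have hz : (z : H) ∈ M' :=
        hM'cl.closure_subset_iff.2 (range_subset_iff.2 fun a => hM'inv a ξ h) z.2
      obtain ⟨y, hy, e⟩ := hz
      exact Subtype.ext e ▸ hy
    by_cases hu0 : u = 0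
    · left
      refine (Submodule.eq_bot_iff M).2 fun z hz => Subtype.ext (ortho _ z.2 fun a => ?_)
      rw [show ξ = v by simp [hv, hu0]]
      exact Submodule.inner_right_of_mem_orthogonal (K := M') (u := (z : H)) ⟨z, hz, rfl⟩ (hperp a v hvM)
    by_cases hv0 : v = 0
    · right
      exact top_of_mem (by rw [sub_eq_zero.1 hv0]; exact huM)
    right
    set σ := Unitization.starLift π with hσ
    have hnu : 0 < ‖u‖ := norm_pos_iff.2 hu0
    have hnv : 0 < ‖v‖ := norm_pos_iff.2 hv0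
    have huv : ⟪u, v⟫_ℂ = 0 := Submodule.inner_right_of_mem_orthogonal huM hvM
    have hsum : ‖u‖ ^ 2 + ‖v‖ ^ 2 = 1 := by
      have h := norm_add_sq (𝕜 := ℂ) u v
      rw [show u + v = ξ by simp [hv], hξ, huv] at h
      simpa using h.symm
    set u' := ((‖u‖⁻¹ : ℝ) : ℂ) • u with hu'
    set v' := ((‖v‖⁻¹ : ℝ) : ℂ) • v with hv'
    obtain ⟨φ1, h1, e1⟩ := exists_vectorState σ u' (by simp [hu', norm_smul, hnu.ne'])
    obtain ⟨φ2, h2, e2⟩ := exists_vectorState σ v' (by simp [hv', norm_smul, hnv.ne'])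
    have hsplit : ∀ a : D, ⟪u, π a ξ⟫_ℂ = ⟪u, π a u⟫_ℂ ∧
        ⟪ξ, π a ξ⟫_ℂ = ⟪u, π a u⟫_ℂ + ⟪v, π a v⟫_ℂ := by
      intro a
      have z1 := Submodule.inner_right_of_mem_orthogonal huM (hperp a v hvM)
      have z2 := Submodule.inner_left_of_mem_orthogonal (hM'inv a u huM) hvM
      rw [show ξ = u + v by simp [hv]]
      simp only [map_add, inner_add_left, inner_add_right, z1, z2, add_zero, zero_add, and_self]
    have r1 : ∀ a : D, ((‖u‖ ^ 2 : ℝ) : ℂ) * resState D φ1 a = ⟪u, π a u⟫_ℂ := fun a => by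
      rw [resState, e1, hσ, starLift_inr]
      simp only [hu', map_smul, inner_smul_left, inner_smul_right, Complex.conj_ofReal]
      push_cast
      field_simp
    have r2 : ∀ a : D, ((‖v‖ ^ 2 : ℝ) : ℂ) * resState D φ2 a = ⟪v, π a v⟫_ℂ := fun a => by
      rw [resState, e2, hσ, starLift_inr]
      simp only [hv', map_smul, inner_smul_left, inner_smul_right, Complex.conj_ofReal]
      push_cast
      field_simp
    have hcombo : ‖u‖ ^ 2 • resState D φ1 + ‖v‖ ^ 2 • resState D φ2 =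
        fun a : D => ⟪ξ, π a ξ⟫_ℂ := by
      funext a
      simp only [Pi.add_apply, Pi.smul_apply, Complex.real_smul, r1, r2, (hsplit a).2]
    have h12 := hext.2 ⟨φ1, h1, rfl⟩ ⟨φ2, h2, rfl⟩
      ⟨‖u‖ ^ 2, ‖v‖ ^ 2, by positivity, by positivity, hsum, hcombo⟩
    have hut : u - ((‖u‖ ^ 2 : ℝ) : ℂ) • ξ = 0 := by
      refine ortho _ (K.sub_mem (hM'K huM) (K.smul_mem _ hξK)) fun a => ?_
      rw [inner_sub_left, inner_smul_left, Complex.conj_ofReal, (hsplit a).1, ← r1, h12, sub_self]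
    refine top_of_mem ?_
    have hc : ((‖u‖ ^ 2 : ℝ) : ℂ) ≠ 0 := by exact_mod_cast (pow_ne_zero 2 hnu.ne')
    have e : ((‖u‖ ^ 2 : ℝ) : ℂ)⁻¹ • u = ξ := (inv_smul_eq_iff₀ hc).2 (sub_eq_zero.1 hut)
    exact e ▸ M'.smul_mem _ huM
  obtain ⟨S, hS, hSc⟩ := hD K ρ ⟨⟨b, hbD⟩, ⟨ξ, hξK⟩, fun h => by
    have h' : π b ξ = 0 := congrArg Subtype.val h
    rw [hbξ] at h'
    simp [h'] at hξ⟩ hK
  refine ⟨Subtype.val '' S, Cardinal.mk_image_le.trans_lt hSc, fun a ha => ?_⟩
  exact image_closure_subset_closure_image continuous_subtype_val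
    ⟨⟨π a ξ, subset_closure ⟨⟨a, ha⟩, rfl⟩⟩, hS _, rfl⟩

/-- The space of the irreducible representation is small. -/
theorem exists_dense_small (hN : OneIrrRep A) (hπ : IsIrrRep π) [Nontrivial A]
    (D : I → NonUnitalStarSubalgebra ℂ A) (hmono : Monotone D)
    (hdense : Dense (⋃ i, (D i : Set A)))
    (hI : Cardinal.mk I < Cardinal.continuum.ord.cof) (hsmall : ∀ i, SmallDual (D i)) :
    ∃ S : Set H, Dense S ∧ Cardinal.mk S < Cardinal.continuum := by
  obtain ⟨a0, ha0U, ha0⟩ : ∃ a ∈ ⋃ i, (D i : Set A), a ≠ 0 := by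
    by_contra hc
    push Not at hc
    obtain ⟨x, hx⟩ := exists_ne (0 : A)
    exact hx (closure_minimal (fun a ha => hc a ha) isClosed_singleton (hdense x))
  obtain ⟨i0, hi0⟩ := mem_iUnion.1 ha0U
  set a' := ((‖a0‖⁻¹ : ℝ) : ℂ) • a0 with ha'
  set b := star a' * a' with hbdef
  have hb : ‖b‖ = 1 := by
    rw [hbdef, CStarRing.norm_star_mul_self, ha', norm_smul]
    simp [norm_ne_zero_iff.2 ha0]
  have hbD : b ∈ D i0 :=
    mul_mem (star_mem (SMulMemClass.smul_mem _ hi0)) (SMulMemClass.smul_mem _ hi0)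
  let J := {i : I // i0 ≤ i}
  have : Nonempty J := ⟨⟨i0, le_rfl⟩⟩
  have hmono' : Monotone fun j : J => D j := fun i j h => hmono h
  have hdense' : Dense (⋃ j : J, (D j : Set A)) := hdense.mono <| iUnion_subset fun i a ha =>
    mem_iUnion.2 ⟨⟨max i i0, le_max_right _ _⟩, hmono (le_max_left _ _) ha⟩
  obtain ⟨φ, hφ, hφb, hext⟩ := exists_chain_state (fun j : J => D j) hmono' hdense' hb
    ⟨a', rfl⟩ fun j => hmono j.2 hbD
  refine exists_irrep_state hφ hb.le hφb fun K _ _ _ ρ ζ hρ hζ hval => ?_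
  obtain ⟨U, hU⟩ := hN K H ρ π hρ hπ
  set ξ := U ζ with hξdef
  have hξ : ‖ξ‖ = 1 := by simpa [hξdef] using hζ
  have hv : ∀ a, ⟪ξ, π a ξ⟫_ℂ = φ (a : Unitization ℂ A) := fun a => by
    rw [hξdef, ← hU, U.inner_map_map, hval]
  have hbξ : π b ξ = ξ := by
    rw [← sub_eq_zero, ← norm_eq_zero]
    have hn : ‖π b ξ‖ ≤ 1 := (map_cont b ξ).trans (by rw [hb, hξ, one_mul])
    have h2 := norm_sub_sq (𝕜 := ℂ) (π b ξ) ξ
    rw [← inner_conj_symm, hv, hφb, hξ, map_one] at h2
    simp only [RCLike.one_re, mul_one, one_pow] at h2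
    nlinarith [norm_nonneg (π b ξ - ξ), norm_nonneg (π b ξ)]
  choose T hTc hT using fun j : ULift.{u} J =>
    exists_piece (π := π) (D j.down) (hsmall j.down) hξ (hmono j.down.2 hbD) hbξ
      (by rw [show (fun a : D j.down => ⟪ξ, π a ξ⟫_ℂ) = resState (D j.down) φ from
            funext fun a => hv a]
          exact hext j.down)
  refine ⟨⋃ j, T j, ?_, ?_⟩
  · have hξ0 : ξ ≠ 0 := by intro h; simp [h] at hξ
    intro x
    refine closure_minimal ?_ isClosed_closure (cyclic hπ hξ0 x)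
    rintro _ ⟨a, rfl⟩
    refine closure_minimal (t := {a | π a ξ ∈ closure (⋃ j, T j)}) ?_
      (isClosed_closure.preimage (continuous_apply_rep ξ)) (hdense' a)
    intro c hc
    obtain ⟨j, hj⟩ := mem_iUnion.1 hc
    exact closure_mono (subset_iUnion T ⟨j⟩) (hT ⟨j⟩ c hj)
  · have hJ : Cardinal.mk (ULift.{u} J) < Cardinal.continuum.{u}.ord.cof := by
      rw [Cardinal.mk_uLift, ← Cardinal.lift_continuum.{u, 0}, ← Cardinal.lift_ord,
        ← Ordinal.lift_cof, Cardinal.lift_lt]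
      exact (Cardinal.mk_subtype_le _).trans_lt hI
    exact Cardinal.mk_iUnion_le_sum_mk.trans_lt <| (Cardinal.sum_le_mk_mul_iSup _).trans_lt <|
      Cardinal.mul_lt_of_lt Cardinal.aleph0_le_continuum (hJ.trans_le <| Ordinal.cof_ord_le _)
        (Cardinal.iSup_lt_of_lt_cof_ord hJ hTc)

/-- Property (N) and a short chain of subalgebras with small dual give the compact operators. -/
theorem naimark_chain (A : Type u) [NonUnitalCStarAlgebra A] [Nontrivial A] (hN : OneIrrRep A)
    (D : I → NonUnitalStarSubalgebra ℂ A) (hmono : Monotone D)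
    (hdense : Dense (⋃ i, (D i : Set A)))
    (hI : Cardinal.mk I < Cardinal.continuum.ord.cof) (hsmall : ∀ i, SmallDual (D i)) :
    ∃ (H : Type u) (_ : NormedAddCommGroup H) (_ : InnerProductSpace ℂ H) (_ : CompleteSpace H)
      (π : A →⋆ₙₐ[ℂ] (H →L[ℂ] H)), Function.Injective π ∧
        range π = {T : H →L[ℂ] H | IsCompactOperator T} := by
  refine exists_irrep (A := A) fun K _ _ _ ρ hρ => ?_
  obtain ⟨S, hS, hc⟩ := exists_dense_small hN hρ D hmono hdense hI hsmall
  exact ⟨K, inferInstance, inferInstance, inferInstance, ρ, range_eq_compact hN hρ hS hc⟩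

end Vale.Agent.P070.Small
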