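import Vale.Agent.P070.Statement

/-!
Short definitions for stating Naimark's problem over chains of subalgebras.
-/

namespace Vale.Agent.P070

universe u

variable {A : Type u} [NonUnitalCStarAlgebra A]

/-- A representation of a subalgebra on a Hilbert space. -/
abbrev SubRep (D : NonUnitalStarSubalgebra ℂ A) (K : Type u) [NormedAddCommGroup K]
    [InnerProductSpace ℂ K] [CompleteSpace K] : Type u :=
  D →⋆ₙₐ[ℂ] (K →L[ℂ] K)

variable {D : NonUnitalStarSubalgebra ℂ A} {K : Type u} [NormedAddCommGroup K]
  [InnerProductSpace ℂ K] [CompleteSpace K]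

/-- The operator attached to an element by a representation of a subalgebra. -/
noncomputable def subRepOp (ρ : SubRep D K) (a : D) : K →L[ℂ] K := ρ a

/-- Irreducibility for a representation of a subalgebra. -/
def IsIrreducibleSubRep (ρ : SubRep D K) : Prop :=
  (∃ a v, subRepOp ρ a v ≠ 0) ∧
    ∀ M : Submodule ℂ K, IsClosed (M : Set K) → (∀ a, ∀ v ∈ M, subRepOp ρ a v ∈ M) →
      M = ⊥ ∨ M = ⊤

/-- A space with a dense subset of cardinality below the continuum. -/
def HasSmallDensity (K : Type u) [TopologicalSpace K] : Prop :=
  ∃ S : Set K, Dense S ∧ Cardinal.mk S < Cardinal.continuum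

/-- A closed subalgebra all of whose irreducible representations act on small spaces. -/
def IsSmallSubalgebra (D : NonUnitalStarSubalgebra ℂ A) : Prop :=
  IsClosed (D : Set A) ∧
    ∀ (K : Type u) [NormedAddCommGroup K] [InnerProductSpace ℂ K] [CompleteSpace K]
      (ρ : SubRep D K), IsIrreducibleSubRep ρ → HasSmallDensity K

/-- A countable index, or one of cardinality below the cofinality of the continuum. -/
def IsShortIndex (I : Type) : Prop :=
  Countable I ∨ Cardinal.mk I < Cardinal.continuum.ord.cof

/-- The closure of a short increasing well-ordered union of small closed subalgebras. -/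
def IsShortChainLimit (A : Type u) [NonUnitalCStarAlgebra A] : Prop :=
  ∃ (I : Type) (_ : LinearOrder I) (_ : WellFoundedLT I)
    (D : I → NonUnitalStarSubalgebra ℂ A), IsShortIndex I ∧ Monotone D ∧
      Dense (⋃ i, (D i : Set A)) ∧ ∀ i, IsSmallSubalgebra (D i)

end Vale.Agent.P070
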