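import Vale.Agent.P070.Chain
import Vale.Agent.P070.ChainStatement
import Vale.Agent.P070.Bridge

/-!
From the short definitions to the form used in the proof.
-/

namespace Vale.Agent.P070

universe u

variable {A : Type u} [NonUnitalCStarAlgebra A]

theorem lt_cof_of_isShortIndex {I : Type} (h : IsShortIndex I) :
    Cardinal.mk I < Cardinal.continuum.ord.cof := by
  rcases h with h | h
  · refine Cardinal.mk_le_aleph0.trans_lt ?_
    rw [← Cardinal.two_power_aleph0]
    exact Cardinal.lt_cof_ord_power le_rfl Cardinal.one_lt_two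
  · exact h

theorem isCompactsAlgebra_of_shortChain (hA : HasPropertyN A) (h : IsShortChainLimit A) :
    IsCompactsAlgebra A := by
  obtain ⟨I, _, _, D, hI, hmono, hdense, hsmall⟩ := h
  have := hA.1
  obtain ⟨H, _, _, _, π, hinj, hr⟩ := Small.naimark_chain A (oneIrrRep_of_propertyN hA) D hmono
    hdense (lt_cof_of_isShortIndex hI) fun i K _ _ _ ρ hne hirr => (hsmall i).2 K ρ ⟨hne, hirr⟩
  exact ⟨H, inferInstance, inferInstance, inferInstance, π, hinj, hr⟩

end Vale.Agent.P070
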