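import Vale.Agent.P070.States

/-!
Joint eigenvectors of a regular abelian subalgebra in an irreducible representation.
-/

namespace Vale.Agent.P070

open scoped InnerProductSpace ComplexOrder
open Set

universe u

/-- Any two irreducible representations are unitarily equivalent. -/
def OneIrrRep (A : Type u) [NonUnitalCStarAlgebra A] : Prop :=
  ∀ (H₁ : Type u) [NormedAddCommGroup H₁] [InnerProductSpace ℂ H₁] [CompleteSpace H₁]
    (H₂ : Type u) [NormedAddCommGroup H₂] [InnerProductSpace ℂ H₂] [CompleteSpace H₂]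
    (π₁ : A →⋆ₙₐ[ℂ] (H₁ →L[ℂ] H₁)) (π₂ : A →⋆ₙₐ[ℂ] (H₂ →L[ℂ] H₂)),
    IsIrrRep π₁ → IsIrrRep π₂ → ∃ U : H₁ ≃ₗᵢ[ℂ] H₂, ∀ a v, U (π₁ a v) = π₂ a (U v)

/-- `n` normalises the range of `ι`. -/
def IsNormalizer {A C : Type u} [NonUnitalCStarAlgebra A] [NonUnitalCommCStarAlgebra C]
    (ι : C →⋆ₙₐ[ℂ] A) (n : A) : Prop :=
  ∀ c, star n * ι c * n ∈ range ι ∧ n * ι c * star n ∈ range ι

/-- A regular maximal abelian subalgebra containing an approximate unit. -/
def IsRegularMasa {A C : Type u} [NonUnitalCStarAlgebra A] [NonUnitalCommCStarAlgebra C]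
    (ι : C →⋆ₙₐ[ℂ] A) : Prop :=
  Function.Injective ι ∧ (∀ a, (∀ c, a * ι c = ι c * a) → a ∈ range ι) ∧
    (∀ a : A, ∀ ε : ℝ, 0 < ε → ∃ c, ‖ι c * a - a‖ < ε) ∧
    Dense (Submodule.span ℂ {n | IsNormalizer ι n} : Set A)

variable {A C : Type u} [NonUnitalCStarAlgebra A] [NonUnitalCommCStarAlgebra C]
variable {H : Type u} [NormedAddCommGroup H] [InnerProductSpace ℂ H] [CompleteSpace H]
variable (π : A →⋆ₙₐ[ℂ] (H →L[ℂ] H)) (ι : C →⋆ₙₐ[ℂ] A)

/-- The standing hypotheses. -/
structure Setting : Prop where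
  one : OneIrrRep A
  irr : IsIrrRep π
  masa : IsRegularMasa ι

/-- `z` is an eigenvector of the subalgebra with character `x`. -/
def Eig (x : C →⋆ₙₐ[ℂ] ℂ) (z : H) : Prop := ∀ c, π (ι c) z = x c • z

variable {π ι}

theorem map_mul_apply (a b : A) (z : H) : π (a * b) z = π a (π b z) := by
  rw [map_mul π]; rfl

theorem inner_map (a : A) (u v : H) : ⟪π a u, v⟫_ℂ = ⟪u, π (star a) v⟫_ℂ := by
  rw [map_star π, ContinuousLinearMap.star_eq_adjoint, ContinuousLinearMap.adjoint_inner_right]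

theorem map_cont (a : A) (z : H) : ‖π a z‖ ≤ ‖a‖ * ‖z‖ :=
  ((π a).le_opNorm z).trans
    (mul_le_mul_of_nonneg_right (NonUnitalStarAlgHom.norm_apply_le π a) (norm_nonneg z))

theorem continuous_apply_rep (z : H) : Continuous fun a => π a z :=
  (ContinuousLinearMap.apply ℂ H z).continuous.comp
    (AddMonoidHomClass.continuous_of_bound π 1 fun a => by
      simpa using NonUnitalStarAlgHom.norm_apply_le π a)

/-- Transport of a fixed vector to the given representation. -/
theorem fixed_vector (hN : OneIrrRep A) (hπ : IsIrrRep π) (P : Set A) (hP : ∀ a ∈ P, ‖a‖ ≤ 1)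
    (hne : P.Nonempty)
    (h : ∃ φ ∈ stateSet (Unitization ℂ A), ∀ a ∈ P, φ (a : Unitization ℂ A) = 1) :
    ∃ ξ : H, ‖ξ‖ = 1 ∧ ∀ a ∈ P, π a ξ = ξ := by
  refine exists_irrep_fixed P hP hne h fun K _ _ _ ρ ξ hρ hξ hfix => ?_
  obtain ⟨U, hU⟩ := hN K H ρ π hρ hπ
  exact ⟨U ξ, by simpa using hξ, fun a ha => by rw [← hU, hfix a ha]⟩

/-- A state taking the value one at a positive element of norm one. -/
theorem exists_state_norm (b : A) (hb : ‖b‖ = 1) (hb' : ∃ a, b = star a * a) :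
    ∃ φ ∈ stateSet (Unitization ℂ A), φ (b : Unitization ℂ A) = 1 := by
  letI : PartialOrder (Unitization ℂ A) := CStarAlgebra.spectralOrder _
  have : StarOrderedRing (Unitization ℂ A) := CStarAlgebra.spectralOrderedRing _
  obtain ⟨a, rfl⟩ := hb'
  set B := ((star a * a : A) : Unitization ℂ A) with hB
  have h0 : 0 ≤ B := by
    rw [hB, Unitization.inr_mul, Unitization.inr_star]; exact star_mul_self_nonneg _
  have hn : IsStarNormal B := (IsSelfAdjoint.of_nonneg h0).isStarNormal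
  have : Nontrivial (Unitization ℂ A) := inferInstance
  have hmem : (1 : ℂ) ∈ spectrum ℂ B := by
    have h := CStarAlgebra.norm_mem_spectrum_of_nonneg (a := B) h0
    rw [hB, Unitization.norm_inr, hb] at h
    have h' := spectrum.algebraMap_mem ℂ h
    simpa [hB] using h'
  set b' : StarAlgebra.elemental ℂ B := ⟨B, StarAlgebra.elemental.self_mem ℂ B⟩
  have hb'mem : (1 : ℂ) ∈ spectrum ℂ b' := by
    rwa [StarSubalgebra.spectrum_eq (S := StarAlgebra.elemental ℂ B) (hS := StarAlgebra.elemental.isClosed ℂ B)]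
  obtain ⟨χ, hχ⟩ := WeakDual.CharacterSpace.mem_spectrum_iff_exists.1 hb'mem
  obtain ⟨φ, hφ, hφχ⟩ := exists_state_of_character (StarAlgebra.elemental ℂ B).subtype
    Subtype.val_injective χ
  exact ⟨φ, hφ, (hφχ b').trans hχ⟩

/-- There is an irreducible representation. -/
theorem exists_irrep [Nontrivial A] {Q : Prop}
    (hQ : ∀ (K : Type u) [NormedAddCommGroup K] [InnerProductSpace ℂ K] [CompleteSpace K]
      (ρ : A →⋆ₙₐ[ℂ] (K →L[ℂ] K)), IsIrrRep ρ → Q) : Q := by
  obtain ⟨a, ha⟩ := exists_ne (0 : A)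
  set a' := ((‖a‖⁻¹ : ℝ) : ℂ) • a with ha'
  have hn : ‖star a' * a'‖ = 1 := by
    rw [CStarRing.norm_star_mul_self, ha', norm_smul]
    simp [norm_ne_zero_iff.2 ha]
  obtain ⟨φ, hφ, hφb⟩ := exists_state_norm _ hn ⟨a', rfl⟩
  exact exists_irrep_fixed {star a' * a'} (by simp [hn]) (singleton_nonempty _)
    ⟨φ, hφ, by simpa using hφb⟩ (fun K _ _ _ ρ ξ hρ _ _ => hQ K ρ hρ)

namespace Setting

variable (S : Setting π ι)
include S

theorem injective : Function.Injective π := by
  rw [injective_iff_map_eq_zero]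
  intro a ha
  by_contra hne
  set a' := ((‖a‖⁻¹ : ℝ) : ℂ) • a with ha'
  have hn : ‖star a' * a'‖ = 1 := by
    rw [CStarRing.norm_star_mul_self, ha', norm_smul]
    simp [norm_ne_zero_iff.2 hne]
  obtain ⟨φ, hφ, hφb⟩ := exists_state_norm _ hn ⟨a', rfl⟩
  obtain ⟨ξ, hξ, hfix⟩ := fixed_vector S.one S.irr {star a' * a'} (by simp [hn])
    (singleton_nonempty _) ⟨φ, hφ, by simpa using hφb⟩
  have h := hfix _ rfl
  rw [map_mul_apply, ha', map_smul π, ha] at h
  simp at h
  simp [← h] at hξ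

theorem isClosed_range : IsClosed (range ι) :=
  (NonUnitalStarAlgHom.isometry ι S.masa.1).isClosedEmbedding.isClosed_range

theorem star_mul_self_mem {n : A} (hn : IsNormalizer ι n) : star n * n ∈ range ι := by
  refine S.isClosed_range.closure_subset ?_
  rw [Metric.mem_closure_iff]
  intro ε hε
  obtain ⟨c, hc⟩ := S.masa.2.2.1 n (ε / (‖n‖ + 1)) (div_pos hε (by positivity))
  refine ⟨_, (hn c).1, ?_⟩
  rw [dist_eq_norm, show star n * n - star n * ι c * n = - (star n * (ι c * n - n)) by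
    simp [mul_sub, mul_assoc], norm_neg]
  refine (norm_mul_le _ _).trans_lt ?_
  rw [norm_star, lt_div_iff₀ (by positivity)] at *
  nlinarith [norm_nonneg n, norm_nonneg (ι c * n - n)]

omit S in
theorem normalizer_star {n : A} (hn : IsNormalizer ι n) : IsNormalizer ι (star n) :=
  fun c => by simpa [and_comm] using hn c

theorem eq_zero_of_killed {z : H} (h : ∀ a, π a z = 0) : z = 0 := by
  let K : Submodule ℂ H :=
    { carrier := {z | ∀ a, π a z = 0}
      add_mem' := fun h1 h2 a => by rw [map_add, h1 a, h2 a, add_zero]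
      zero_mem' := fun a => map_zero _
      smul_mem' := fun r z h1 a => by rw [map_smul, h1 a, smul_zero] }
  have hK : IsClosed (K : Set H) := by
    show IsClosed {z : H | ∀ a, π a z = 0}
    simp only [ofPred_forall]
    exact isClosed_iInter fun a => isClosed_eq (π a).continuous continuous_const
  rcases S.irr.2 K hK (fun a v hv b => by rw [hv a]; exact map_zero _) with e | e
  · exact (Submodule.mem_bot ℂ).1 (e ▸ h : z ∈ (⊥ : Submodule ℂ H))
  · refine (S.irr.1 (NonUnitalStarAlgHom.ext fun a => ?_)).elim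
    ext v
    exact (e ▸ Submodule.mem_top : v ∈ K) a

/-- Every nonzero vector is cyclic. -/
theorem cyclic {z : H} (hz : z ≠ 0) : DenseRange fun a => π a z := by
  let M : Submodule ℂ H :=
    { carrier := closure (range fun a => π a z)
      add_mem' := fun h1 h2 => map_mem_closure₂ continuous_add h1 h2 (by
        rintro _ ⟨a, rfl⟩ _ ⟨b, rfl⟩
        exact ⟨a + b, by simp [map_add π]⟩)
      zero_mem' := subset_closure ⟨0, by simp [map_zero π]⟩
      smul_mem' := fun r v h => map_mem_closure (continuous_const_smul r) h (by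
        rintro _ ⟨a, rfl⟩
        exact ⟨r • a, by simp [map_smul π]⟩) }
  rcases S.irr.2 M isClosed_closure (fun a v hv => map_mem_closure (π a).continuous hv (by
    rintro _ ⟨b, rfl⟩
    exact ⟨a * b, map_mul_apply a b z⟩)) with e | e
  · refine (hz (S.eq_zero_of_killed fun a => ?_)).elim
    exact (Submodule.mem_bot ℂ).1 (e ▸ subset_closure ⟨a, rfl⟩ : π a z ∈ (⊥ : Submodule ℂ H))
  · intro v
    exact (e ▸ Submodule.mem_top : v ∈ M)

theorem exists_ne_zero_of_eig {x : C →⋆ₙₐ[ℂ] ℂ} {z : H} (hz : z ≠ 0) (h : Eig π ι x z) :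
    ∃ c, x c ≠ 0 := by
  by_contra hx
  simp only [not_exists, not_not] at hx
  refine hz (S.eq_zero_of_killed fun a => ?_)
  refine ext_inner_right ℂ fun w => ?_
  rw [inner_zero_left, inner_map]
  by_contra hne
  have hpos : 0 < ‖⟪z, π (star a) w⟫_ℂ‖ := norm_pos_iff.2 hne
  obtain ⟨c, hc⟩ := S.masa.2.2.1 (star a)
    (‖⟪z, π (star a) w⟫_ℂ‖ / (‖z‖ * ‖w‖ + 1)) (div_pos hpos (by positivity))
  have e : ⟪z, π (ι c * star a) w⟫_ℂ = 0 := by
    rw [map_mul_apply, ← star_star (ι c), ← inner_map, ← map_star ι, h, hx, zero_smul,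
      inner_zero_left]
  have e2 : ⟪z, π (star a) w⟫_ℂ = - ⟪z, π (ι c * star a - star a) w⟫_ℂ := by
    rw [map_sub π, sub_apply, inner_sub_right, e]; ring
  have h3 := (norm_inner_le_norm (𝕜 := ℂ) z (π (ι c * star a - star a) w)).trans
    (mul_le_mul_of_nonneg_left (map_cont (π := π) _ w) (norm_nonneg z))
  rw [← norm_neg, ← e2] at h3
  rw [lt_div_iff₀ (by positivity)] at hc
  nlinarith [norm_nonneg z, norm_nonneg w, norm_nonneg (ι c * star a - star a)]

omit S in
/-- A nonzero joint eigenvector has a character. -/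
theorem exists_char {z : H} (hz : z ≠ 0) {μ : C → ℂ} (h : ∀ c, π (ι c) z = μ c • z) :
    ∃ x : C →⋆ₙₐ[ℂ] ℂ, Eig π ι x z ∧ ⇑x = μ := by
  have uniq : ∀ {r s : ℂ}, r • z = s • z → r = s := fun h => smul_left_injective ℂ hz h
  refine ⟨{ toFun := μ, map_smul' := fun r c => ?_, map_zero' := ?_, map_add' := fun c d => ?_,
            map_mul' := fun c d => ?_, map_star' := fun c => ?_ }, h, rfl⟩
  · refine uniq ?_
    simp only [MonoidHom.id_apply, smul_eq_mul, ← h, map_smul ι, map_smul π, smul_apply, mul_smul]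
  · refine uniq ?_
    rw [← h, map_zero ι, map_zero π, zero_apply, zero_smul]
  · refine uniq ?_
    rw [← h, map_add ι, map_add π, add_apply, h, h, add_smul]
  · refine uniq ?_
    rw [← h, map_mul ι, map_mul_apply, h, map_smul, h, smul_smul, mul_comm (μ c)]
  · have e1 : ⟪π (ι c) z, z⟫_ℂ = ⟪z, π (ι (star c)) z⟫_ℂ := by rw [inner_map, map_star ι]
    rw [h, h, inner_smul_left, inner_smul_right] at e1
    exact (mul_right_cancel₀ (inner_self_ne_zero.2 hz) e1).symm

omit S in
theorem inner_eq_zero_of_ne {x y : C →⋆ₙₐ[ℂ] ℂ} {u v : H} (hu : Eig π ι x u) (hv : Eig π ι y v)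
    (hxy : x ≠ y) : ⟪u, v⟫_ℂ = 0 := by
  obtain ⟨c, hc⟩ := DFunLike.ne_iff.1 hxy
  have e : ⟪π (ι (star c)) u, v⟫_ℂ = ⟪u, π (ι c) v⟫_ℂ := by
    rw [inner_map, map_star ι, star_star]
  rw [hu, hv, inner_smul_left, inner_smul_right, map_star x, ← Complex.star_def, star_star] at e
  by_contra h
  exact hc (mul_right_cancel₀ h e)

omit S in
theorem norm_map_sq {n : A} {r : C} (hr : ι r = star n * n) {x : C →⋆ₙₐ[ℂ] ℂ} {z : H}
    (hz : Eig π ι x z) : ((‖π n z‖ ^ 2 : ℝ) : ℂ) = x r * ((‖z‖ ^ 2 : ℝ) : ℂ) := by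
  have e := inner_map (π := π) n z (π n z)
  rw [← map_mul_apply, ← hr, hz, inner_smul_right, inner_self_eq_norm_sq_to_K,
    inner_self_eq_norm_sq_to_K] at e
  push_cast
  exact e

/-- A normaliser maps an eigenvector to an eigenvector or to zero. -/
theorem map_eig {n : A} (hn : IsNormalizer ι n) {r : C} (hr : ι r = star n * n)
    {x : C →⋆ₙₐ[ℂ] ℂ} {z : H} (hz : Eig π ι x z) (hnz : π n z ≠ 0) :
    x r ≠ 0 ∧ ∃ y : C →⋆ₙₐ[ℂ] ℂ, Eig π ι y (π n z) ∧
      ∀ c m, ι m = star n * ι c * n → y c * x r = x m := by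
  have hxr : x r ≠ 0 := by
    intro h
    have e := norm_map_sq hr hz
    rw [h, zero_mul] at e
    simp [hnz] at e
  obtain ⟨r', hr'⟩ : n * star n ∈ range ι := by
    simpa using S.star_mul_self_mem (normalizer_star hn)
  have key : ∀ c m, ι m = star n * ι c * n → π (ι c) (π n z) = (x m / x r) • π n z := by
    intro c m hm
    have e1 : x r • π (ι c) (π n z) = π (ι c * (n * star n) * n) z := by
      rw [← map_smul, ← map_smul, ← hz r, ← map_mul_apply, ← map_mul_apply, hr]
      simp [mul_assoc]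
    have e2 : ι c * (n * star n) * n = n * ι m := by
      rw [← hr', ← map_mul ι, mul_comm c r', map_mul ι, hr', hm]
      simp [mul_assoc]
    rw [e2, map_mul_apply, hz, map_smul] at e1
    rw [div_eq_inv_mul, mul_smul, ← e1, inv_smul_smul₀ hxr]
  choose m hm using fun c => (hn c).1
  obtain ⟨y, hy, hyμ⟩ := exists_char hnz (fun c => key c (m c) (hm c))
  refine ⟨hxr, y, hy, fun c m' hm' => ?_⟩
  have := smul_left_injective ℂ hnz ((hy c).symm.trans (key c m' hm'))
  rw [this, div_mul_cancel₀ _ hxr]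

/-- Every character has an eigenvector. -/
theorem exists_eig (x : C →⋆ₙₐ[ℂ] ℂ) {c₀ : C} (hc₀ : ‖c₀‖ ≤ 1) (hx : x c₀ = 1) :
    ∃ ξ : H, ‖ξ‖ = 1 ∧ Eig π ι x ξ := by
  have hj : Function.Injective (Unitization.starMap ι) := by
    intro u v huv
    have h1 := congrArg (fun q => q.fst) huv
    have h2 := congrArg (fun q => q.snd) huv
    simp [Unitization.algebraMap_eq_inl] at h1 h2
    exact Unitization.ext h1 (S.masa.1 h2)
  obtain ⟨φ, hφ, hφx⟩ := exists_state_of_character (Unitization.starMap ι) hj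
    (WeakDual.CharacterSpace.equivAlgHom.symm (Unitization.starLift x).toAlgHom)
  have hφc : ∀ c : C, φ ((ι c : A) : Unitization ℂ A) = x c := fun c => by
    have := hφx (c : Unitization ℂ C)
    simpa using this
  have hιn : ∀ c : C, ‖ι c‖ ≤ ‖c‖ := fun c => NonUnitalStarAlgHom.norm_apply_le ι c
  obtain ⟨ξ, hξ, hfix⟩ := fixed_vector S.one S.irr
    (ι '' {c | ‖c‖ ≤ 1 ∧ x c = 1}) (by rintro _ ⟨c, hc, rfl⟩; exact (hιn c).trans hc.1)
    ⟨_, c₀, ⟨hc₀, hx⟩, rfl⟩ ⟨φ, hφ, by rintro _ ⟨c, hc, rfl⟩; rw [hφc, hc.2]⟩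
  have kill : ∀ d, x d = 0 → π (ι d) ξ = 0 := by
    intro d hd
    rcases eq_or_ne d 0 with rfl | hd0
    · simp [map_zero ι, map_zero π]
    set d' := ((‖d‖⁻¹ : ℝ) : ℂ) • d with hd'
    have hxd : x d' = 0 := by rw [hd', map_smul x, hd, smul_zero]
    set e := star d' * d' with he
    have hne : ‖e‖ = 1 := by
      rw [he, CStarRing.norm_star_mul_self, hd', norm_smul]
      simp [norm_ne_zero_iff.2 hd0]
    have hsmall : ‖c₀ - c₀ * e‖ ≤ 1 := by
      letI : PartialOrder (Unitization ℂ C) := CStarAlgebra.spectralOrder _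
      have : StarOrderedRing (Unitization ℂ C) := CStarAlgebra.spectralOrderedRing _
      have h0 : (0 : Unitization ℂ C) ≤ (e : Unitization ℂ C) := by
        rw [he, Unitization.inr_mul, Unitization.inr_star]; exact star_mul_self_nonneg _
      have h1 : (e : Unitization ℂ C) ≤ 1 :=
        (CStarAlgebra.norm_le_one_iff_of_nonneg _ h0).1 (by rw [Unitization.norm_inr, hne])
      have h2 : ‖(1 : Unitization ℂ C) - (e : Unitization ℂ C)‖ ≤ 1 :=
        (CStarAlgebra.norm_le_one_iff_of_nonneg _ (sub_nonneg.2 h1)).2 (sub_le_self _ h0)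
      rw [← Unitization.norm_inr (𝕜 := ℂ) (A := C) (c₀ - c₀ * e),
        show ((c₀ - c₀ * e : C) : Unitization ℂ C)
          = (c₀ : Unitization ℂ C) * (1 - (e : Unitization ℂ C)) by
            rw [mul_sub, mul_one, Unitization.inr_sub, Unitization.inr_mul]]
      refine (norm_mul_le _ _).trans (mul_le_one₀ ?_ (norm_nonneg _) h2)
      rw [Unitization.norm_inr]; exact hc₀
    have hc1 := hfix _ ⟨c₀, ⟨hc₀, hx⟩, rfl⟩
    have hxe : x (c₀ - c₀ * e) = 1 := by
      rw [map_sub x, map_mul x, he, map_mul x, hxd, hx]; simp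
    have hc2 := hfix _ ⟨c₀ - c₀ * e, ⟨hsmall, hxe⟩, rfl⟩
    rw [map_sub ι, map_sub π, sub_apply, hc1, sub_eq_self, mul_comm c₀ e, map_mul ι,
      map_mul_apply, hc1] at hc2
    have h3 : ⟪π (ι d') ξ, π (ι d') ξ⟫_ℂ = 0 := by
      rw [inner_map, ← map_star ι, ← map_mul_apply, ← map_mul ι, ← he, hc2, inner_zero_right]
    rw [inner_self_eq_zero, hd', map_smul ι, map_smul π, smul_apply, smul_eq_zero] at h3
    exact h3.resolve_left (by simp [hd0])
  refine ⟨ξ, hξ, fun d => ?_⟩
  have h := kill (d - x d • c₀) (by rw [map_sub x, map_smul x, hx]; simp)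
  rw [map_sub ι, map_sub π, sub_apply, sub_eq_zero, map_smul ι, map_smul π, smul_apply,
    hfix _ ⟨c₀, ⟨hc₀, hx⟩, rfl⟩] at h
  exact h

/-- The eigenvectors span a dense subspace. -/
theorem dense_eig {x : C →⋆ₙₐ[ℂ] ℂ} {ξ : H} (hξ : ξ ≠ 0) (hx : Eig π ι x ξ) :
    Dense (Submodule.span ℂ {z : H | ∃ y, Eig π ι y z} : Set H) := by
  set E := Submodule.span ℂ {z : H | ∃ y, Eig π ι y z} with hE
  have hnorm : ∀ n, IsNormalizer ι n → π n ξ ∈ E := by
    intro n hn
    obtain ⟨r, hr⟩ := S.star_mul_self_mem hn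
    by_cases h : π n ξ = 0
    · rw [h]; exact E.zero_mem
    obtain ⟨-, y, hy, -⟩ := S.map_eig hn hr hx h
    exact Submodule.subset_span ⟨y, hy⟩
  have hspan : ∀ a ∈ Submodule.span ℂ {n | IsNormalizer ι n}, π a ξ ∈ E := by
    intro a ha
    induction ha using Submodule.span_induction with
    | mem n hn => exact hnorm n hn
    | zero => simp [map_zero π]
    | add p q _ _ hp hq => rw [map_add π, add_apply]; exact E.add_mem hp hq
    | smul r p _ hp => rw [map_smul π, smul_apply]; exact E.smul_mem r hp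
  intro v
  refine closure_minimal ?_ isClosed_closure (S.cyclic hξ v)
  rintro _ ⟨a, rfl⟩
  exact map_mem_closure (f := fun a => π a ξ) (continuous_apply_rep (π := π) ξ) (S.masa.2.2.2 a)
    hspan

end Setting

end Vale.Agent.P070
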