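import Vale.Agent.P070.Split

/-!
Naimark's problem for C*-algebras with a regular maximal abelian subalgebra.
-/

namespace Vale.Agent.P070

open scoped InnerProductSpace ComplexOrder
open Set InnerProductSpace

universe u

variable {A C : Type u} [NonUnitalCStarAlgebra A] [NonUnitalCommCStarAlgebra C]
variable {H : Type u} [NormedAddCommGroup H] [InnerProductSpace ℂ H] [CompleteSpace H]
variable {π : A →⋆ₙₐ[ℂ] (H →L[ℂ] H)} {ι : C →⋆ₙₐ[ℂ] A}

variable (π ι) in
/-- A character with an eigenvector. -/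
def IsPoint (y : C →⋆ₙₐ[ℂ] ℂ) : Prop := ∃ z, z ≠ 0 ∧ Eig π ι y z

variable (π ι) in
/-- A character which is isolated among those with eigenvectors. -/
def IsIsolated (x : C →⋆ₙₐ[ℂ] ℂ) : Prop :=
  ∃ c, x c ≠ 0 ∧ ∀ y, IsPoint π ι y → y ≠ x → y c = 0

omit [CompleteSpace H] in
theorem continuous_rankOne_left (v : H) : Continuous fun w : H => rankOne ℂ w v := by
  simp only [rankOne_def]
  exact (ContinuousLinearMap.smulRightL ℂ H H (innerSL ℂ v)).continuous

theorem starLift_inr (a : A) :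
    Unitization.starLift π (a : Unitization ℂ A) = π a := by
  rw [← Unitization.starLift_symm_apply_apply, Equiv.symm_apply_apply]

namespace Setting

variable (S : Setting π ι)
include S

omit S in
theorem normalised {y : C →⋆ₙₐ[ℂ] ℂ} {z : H} (hz : z ≠ 0) (hy : Eig π ι y z) :
    ∃ e : H, ‖e‖ = 1 ∧ Eig π ι y e :=
  ⟨((‖z‖⁻¹ : ℝ) : ℂ) • z, by simp [norm_smul, hz], fun c => by rw [map_smul, hy c, smul_comm]⟩

/-- A vector orthogonal to all eigenvectors vanishes. -/
theorem orth_zero {x : C →⋆ₙₐ[ℂ] ℂ} {ξ : H} (hξ : ξ ≠ 0) (hx : Eig π ι x ξ) {v : H}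
    (h : ∀ y z, Eig π ι y z → ⟪z, v⟫_ℂ = 0) : v = 0 := by
  have hspan : ∀ w ∈ Submodule.span ℂ {z : H | ∃ y, Eig π ι y z}, ⟪w, v⟫_ℂ = 0 := by
    intro w hw
    induction hw using Submodule.span_induction with
    | mem z hz => obtain ⟨y, hy⟩ := hz; exact h y z hy
    | zero => exact inner_zero_left _
    | add p q _ _ hp hq => rw [inner_add_left, hp, hq, add_zero]
    | smul r p _ hp => rw [inner_smul_left, hp, mul_zero]
  exact inner_self_eq_zero.1 (congrFun (Continuous.ext_on (S.dense_eig hξ hx)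
    (continuous_id.inner continuous_const) (continuous_const (y := (0 : ℂ))) hspan) v)

theorem exists_start [Nontrivial A] : ∃ x ξ, ‖ξ‖ = 1 ∧ Eig π ι x ξ := by
  obtain ⟨a, ha⟩ := exists_ne (0 : A)
  obtain ⟨c, hc⟩ := S.masa.2.2.1 a ‖a‖ (norm_pos_iff.2 ha)
  have hc0 : c ≠ 0 := by
    rintro rfl
    simp [map_zero ι] at hc
  set c1 := ((‖c‖⁻¹ : ℝ) : ℂ) • c with hc1
  set e := star c1 * c1 with he
  have hn : ‖e‖ = 1 := by
    rw [he, CStarRing.norm_star_mul_self, hc1, norm_smul]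
    simp [norm_ne_zero_iff.2 hc0]
  let _ : PartialOrder (Unitization ℂ C) := CStarAlgebra.spectralOrder _
  have : StarOrderedRing (Unitization ℂ C) := CStarAlgebra.spectralOrderedRing _
  have h0 : (0 : Unitization ℂ C) ≤ (e : Unitization ℂ C) := by
    rw [he, Unitization.inr_mul, Unitization.inr_star]; exact star_mul_self_nonneg _
  have hmem : (1 : ℂ) ∈ spectrum ℂ (e : Unitization ℂ C) := by
    have h := CStarAlgebra.norm_mem_spectrum_of_nonneg (a := (e : Unitization ℂ C)) h0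
    rw [Unitization.norm_inr, hn] at h
    simpa using spectrum.algebraMap_mem ℂ h
  obtain ⟨χ, hχ⟩ := WeakDual.CharacterSpace.mem_spectrum_iff_exists.1 hmem
  let x : C →⋆ₙₐ[ℂ] ℂ :=
    { toFun := fun b => χ (b : Unitization ℂ C)
      map_smul' := fun r b => by simp [Unitization.inr_smul, map_smul χ]
      map_zero' := by simp [map_zero χ]
      map_add' := fun b b' => by simp [Unitization.inr_add, map_add χ]
      map_mul' := fun b b' => by simp [Unitization.inr_mul, map_mul χ]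
      map_star' := fun b => by simp [Unitization.inr_star, map_star χ] }
  obtain ⟨ξ, hξ, hx⟩ := S.exists_eig x (c₀ := e) hn.le hχ
  exact ⟨x, ξ, hξ, hx⟩

/-- Every point is isolated: otherwise the splitting gives an impossible state. -/
theorem isolated {x : C →⋆ₙₐ[ℂ] ℂ} {ξ : H} (hξ : ‖ξ‖ = 1) (hx : Eig π ι x ξ) :
    IsIsolated π ι x := by
  by_contra hiso
  have hξ0 : ξ ≠ 0 := by rintro rfl; simp at hξ
  have hni : ∀ c, x c ≠ 0 → ∃ y z, y ≠ x ∧ z ≠ 0 ∧ Eig π ι y z ∧ y c ≠ 0 := by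
    intro c hc
    by_contra h
    exact hiso ⟨c, hc, fun y ⟨z, hz, hy⟩ hne => by
      by_contra hyc; exact h ⟨y, z, hne, hz, hy, hyc⟩⟩
  obtain ⟨c, hc⟩ := S.exists_ne_zero_of_eig hξ0 hx
  have hbase : Good π ι x 0 (ι (cfcₙ cut0 (unitSq x c))) (cfcₙ cut1 (unitSq x c)) := by
    have hsa : IsSelfAdjoint (cfcₙ cut0 (unitSq x c)) := cfcₙ_predicate cut0 _
    have hx1 : (x (unitSq x c)).re = 1 := by
      rw [unitSq_apply, Complex.ofReal_re, div_self (by rw [Ne, Complex.normSq_eq_zero]; exact hc)]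
    refine ⟨?_, fun y z hz => ?_, ?_, fun y z hz hy => ?_⟩
    · rw [char_cfc x (unitSq_sa x c) continuous_cut1 cut1_zero, hx1, cut1_one]; simp
    · rw [← map_star ι, hsa.star_eq, hz, pow_zero, one_mul]
      refine ⟨y, fun e => by rw [map_smul, hz e, smul_comm], ?_⟩
      rw [norm_smul, mul_pow, char_cfc y (unitSq_sa x c) continuous_cut0 cut0_zero,
        Complex.norm_real, Real.norm_eq_abs, sq_abs]
      refine mul_le_of_le_one_left (sq_nonneg _) ?_
      rw [sq]; exact mul_le_one₀ (cut0_le _) (cut0_nonneg _) (cut0_le _)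
    · exact (NonUnitalStarAlgHom.norm_apply_le ι _).trans (norm_cfc_le_one cut0_nonneg cut0_le)
    · have h1 : y (cfcₙ cut0 (unitSq x c)) = 1 := by
        rw [char_cfc y (unitSq_sa x c) continuous_cut1 cut1_zero, ne_eq,
          Complex.ofReal_eq_zero] at hy
        rw [char_cfc y (unitSq_sa x c) continuous_cut0 cut0_zero, cut0_of_cut1 hy]; simp
      rw [← map_star ι, hsa.star_eq, hz, h1, one_smul, hz, h1, one_smul]
  choose nU nc hG hdec using fun (k : ℕ) (s : {p : A × C // Good π ι x k p.1 p.2}) =>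
    S.step hξ0 hx hni s.2
  let seq : ∀ k, {p : A × C // Good π ι x k p.1 p.2} := fun k =>
    Nat.rec ⟨(_, _), hbase⟩ (fun j s => ⟨(nU j s, nc j s), hG j s⟩) k
  set a : ℕ → A := fun k => (seq k).1.1 * star (seq k).1.1 with ha
  have fix' : ∀ m j y z, Eig π ι y z → y (seq (j + m)).1.2 ≠ 0 →
      π (a j) (π (seq (j + m)).1.1 z) = π (seq (j + m)).1.1 z := by
    intro m
    induction m with
    | zero =>
      intro j y z hz hy
      rw [ha]
      simp only [Nat.add_zero] at hy ⊢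
      rw [map_mul_apply, (seq j).2.isom y z hz hy]
    | succ m ih =>
      intro j y z hz hy
      obtain ⟨y₁, z₁, y₂, z₂, h1, h1c, h2, h2c, he⟩ := hdec (j + m) (seq (j + m)) y z hz hy
      show π (a j) (π (nU (j + m) (seq (j + m))) z) = π (nU (j + m) (seq (j + m))) z
      rw [he, map_add, ih j y₁ z₁ h1 h1c, ih j y₂ z₂ h2 h2c]
  set η : ℕ → H := fun k => π (seq k).1.1 ξ with hη
  have hηn : ∀ k, ‖η k‖ = 1 := by
    intro k
    have h : ⟪η k, η k⟫_ℂ = ⟪ξ, ξ⟫_ℂ := by
      rw [hη]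
      show ⟪π _ ξ, π _ ξ⟫_ℂ = _
      rw [inner_map, (seq k).2.isom x ξ hx (seq k).2.at_base]
    rw [← hξ, norm_eq_sqrt_re_inner (𝕜 := ℂ), norm_eq_sqrt_re_inner (𝕜 := ℂ), h]
  let t : ℕ → Set (WeakDual ℂ (Unitization ℂ A)) := fun n =>
    {φ | φ ∈ stateSet (Unitization ℂ A) ∧ ∀ k ≤ n, φ (a k : Unitization ℂ A) = 1}
  have tcl : ∀ n, IsClosed (t n) := fun n => by
    refine IsClosed.inter isClosed_stateSet ?_
    show IsClosed {φ : WeakDual ℂ (Unitization ℂ A) | ∀ k ≤ n, φ (a k : Unitization ℂ A) = 1}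
    simp only [ofPred_forall]
    exact isClosed_biInter fun k _ => isClosed_eq (WeakDual.eval_continuous _) continuous_const
  have tne : ∀ n, (t n).Nonempty := by
    intro n
    obtain ⟨φ, hφ, hφv⟩ := exists_vectorState (Unitization.starLift π) (η n) (hηn n)
    refine ⟨φ, hφ, fun k hk => ?_⟩
    obtain ⟨m, rfl⟩ := Nat.exists_eq_add_of_le hk
    rw [hφv, starLift_inr]
    show ⟪_, π (a k) (π (seq (k + m)).1.1 ξ)⟫_ℂ = 1
    rw [fix' m k x ξ hx (seq (k + m)).2.at_base, inner_self_eq_norm_sq_to_K]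
    simp [η, show ‖π (seq (k + m)).1.1 ξ‖ = 1 from hηn (k + m)]
  obtain ⟨φ, hφ⟩ := IsCompact.nonempty_iInter_of_sequence_nonempty_isCompact_isClosed t
    (fun n φ h => ⟨h.1, fun k hk => h.2 k (hk.trans (Nat.le_succ n))⟩) tne
    (isCompact_stateSet.of_isClosed_subset (tcl 0) fun φ h => h.1) tcl
  rw [mem_iInter] at hφ
  obtain ⟨v, hv, hfix⟩ := fixed_vector S.one S.irr (range a) (by
      rintro _ ⟨k, rfl⟩
      refine (norm_mul_le _ _).trans ?_
      rw [norm_star]
      exact mul_le_one₀ (seq k).2.contraction (norm_nonneg _) (seq k).2.contraction)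
    ⟨_, 0, rfl⟩ ⟨φ, (hφ 0).1, by rintro _ ⟨k, rfl⟩; exact (hφ k).2 k le_rfl⟩
  have key : ∀ y z, Eig π ι y z → ⟪z, v⟫_ℂ = 0 := by
    intro y z hz
    by_contra hne
    have bound : ∀ k : ℕ, ‖⟪z, v⟫_ℂ‖ ^ 2 ≤ (1 / 2 : ℝ) ^ k * ‖z‖ ^ 2 := by
      intro k
      obtain ⟨_, -, hn⟩ := (seq k).2.spread y z hz
      have e : ⟪z, v⟫_ℂ = ⟪π (star (seq k).1.1) z, π (star (seq k).1.1) v⟫_ℂ := by
        rw [inner_map, star_star, ← map_mul_apply]
        exact (congrArg (fun w => ⟪z, w⟫_ℂ) (hfix _ ⟨k, rfl⟩)).symm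
      have e2 : ‖π (star (seq k).1.1) v‖ ≤ 1 := by
        refine (map_cont (π := π) _ v).trans ?_
        rw [hv, mul_one, norm_star]; exact (seq k).2.contraction
      rw [e]
      refine le_trans ?_ hn
      refine pow_le_pow_left₀ (norm_nonneg _) ((norm_inner_le_norm _ _).trans ?_) 2
      exact mul_le_of_le_one_right (norm_nonneg _) e2
    have hp : 0 < ‖⟪z, v⟫_ℂ‖ ^ 2 := pow_pos (norm_pos_iff.2 hne) 2
    obtain ⟨k, hk⟩ := exists_pow_lt_of_lt_one (div_pos hp (show 0 < ‖z‖ ^ 2 + 1 by positivity))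
      (show (1 / 2 : ℝ) < 1 by norm_num)
    rw [lt_div_iff₀ (by positivity)] at hk
    nlinarith [bound k, show (0 : ℝ) ≤ (1 / 2) ^ k by positivity]
  rw [S.orth_zero hξ0 hx key] at hv
  simp at hv

/-- The projection onto an eigenline. -/
theorem exists_proj {x : C →⋆ₙₐ[ℂ] ℂ} {e : H} (he : ‖e‖ = 1) (hx : Eig π ι x e) :
    ∃ p : C, IsSelfAdjoint p ∧ x p = 1 ∧ (∀ y, IsPoint π ι y → y ≠ x → y p = 0) ∧
      π (ι p) = rankOne ℂ e e := by
  have he0 : e ≠ 0 := by rintro rfl; simp at he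
  obtain ⟨c, hc, hcy⟩ := S.isolated he hx
  set p := cfcₙ cut1 (unitSq x c) with hp
  have hxp : x p = 1 := by
    rw [hp, char_cfc x (unitSq_sa x c) continuous_cut1 cut1_zero, unitSq_apply, Complex.ofReal_re,
      div_self (by rw [Ne, Complex.normSq_eq_zero]; exact hc), cut1_one]
    simp
  have hyp : ∀ y, IsPoint π ι y → y ≠ x → y p = 0 := fun y hy hne => by
    rw [hp, char_cfc y (unitSq_sa x c) continuous_cut1 cut1_zero, unitSq_apply, hcy y hy hne]
    simp [cut1_zero]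
  have hpsa : IsSelfAdjoint p := cfcₙ_predicate cut1 _
  refine ⟨p, hpsa, hxp, hyp, ?_⟩
  have hcp : ∀ d, ι d * ι p = x d • ι p := by
    intro d
    refine S.ext_eig he0 hx fun y z hz => ?_
    rw [map_smul π, smul_apply, map_mul_apply, hz p, map_smul, hz d, smul_smul, smul_smul]
    by_cases hz0 : z = 0
    · simp [hz0]
    by_cases hyx : y = x
    · rw [hyx, mul_comm]
    · rw [hyp y ⟨z, hz0, hz⟩ hyx, zero_mul, mul_zero]
  have hpc : ∀ d, ι p * ι d = x d • ι p := fun d => by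
    rw [← map_mul ι, mul_comm, map_mul ι, hcp]
  have hmem : ∀ a, ι p * a * ι p ∈ range ι := fun a => S.masa.2.1 _ fun d => by
    rw [mul_assoc _ (ι p) (ι d), hpc, mul_smul_comm, ← mul_assoc (ι d), ← mul_assoc (ι d), hcp,
      smul_mul_assoc, smul_mul_assoc]
  have hline : ∀ v, π (ι p) v ∈ Submodule.span ℂ {e} := by
    intro v
    have hcl : IsClosed {v : H | π (ι p) v ∈ Submodule.span ℂ {e}} :=
      (Submodule.closed_of_finiteDimensional _).preimage (π (ι p)).continuous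
    refine closure_minimal ?_ hcl (S.cyclic he0 v)
    rintro _ ⟨a, rfl⟩
    obtain ⟨d, hd⟩ := hmem a
    refine Submodule.mem_span_singleton.2 ⟨x d, ?_⟩
    rw [← hx d, hd, map_mul_apply, hx p, hxp, one_smul, map_mul_apply]
  refine ContinuousLinearMap.ext fun v => ?_
  obtain ⟨r, hr⟩ := Submodule.mem_span_singleton.1 (hline v)
  rw [rankOne_apply, ← hr]
  congr 1
  have h : ⟪e, r • e⟫_ℂ = ⟪e, v⟫_ℂ := by
    rw [hr, ← star_star (ι p), ← inner_map, ← map_star ι, hpsa.star_eq, hx p, hxp, one_smul]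
  simpa [inner_smul_right, inner_self_eq_norm_sq_to_K, he] using h

theorem finite_support [Nontrivial A] {c : C} (hc : IsSelfAdjoint c) {ε : ℝ} :
    {y : C →⋆ₙₐ[ℂ] ℂ | IsPoint π ι y ∧ cut0 ((y c).re ^ 2 / ε ^ 2) ≠ 0}.Finite := by
  by_contra hinf
  obtain ⟨x, ξ, hξ, hx⟩ := S.exists_start
  have hξ0 : ξ ≠ 0 := by rintro rfl; simp at hξ
  let X := {y : C →⋆ₙₐ[ℂ] ℂ // IsPoint π ι y}
  have hp : ∀ y : X, ∃ p : C, IsSelfAdjoint p ∧ y.1 p = 1 ∧
      ∀ y', IsPoint π ι y' → y' ≠ y.1 → y' p = 0 := by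
    intro y
    obtain ⟨z, hz, hyz⟩ := y.2
    obtain ⟨e, he, hye⟩ := normalised hz hyz
    obtain ⟨p, h1, h2, h3, -⟩ := S.exists_proj he hye
    exact ⟨p, h1, h2, h3⟩
  choose p hpsa hp1 hp0 using hp
  classical
  let q : Finset X → C := fun F => ∑ y ∈ F, p y
  have hq : ∀ F : Finset X, ∀ y : X, y.1 (q F) = if y ∈ F then 1 else 0 := by
    intro F y
    rw [show y.1 (q F) = ∑ i ∈ F, y.1 (p i) from map_sum y.1 _ _]
    rw [Finset.sum_congr rfl (g := fun i => if i = y then (1 : ℂ) else 0) fun i _ => ?_]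
    · rw [Finset.sum_ite_eq']
    · split_ifs with h
      · rw [h, hp1]
      · exact hp0 i y.1 y.2 fun e => h (Subtype.ext e.symm)
  have hqsa : ∀ F, IsSelfAdjoint (q F) := fun F => by
    show star (∑ y ∈ F, p y) = _
    rw [star_sum]
    exact Finset.sum_congr rfl fun i _ => (hpsa i).star_eq
  let f : ℝ → ℝ := fun t => cut0 (4 * t ^ 2 / ε ^ 2)
  have hf : Continuous f := continuous_cut0.comp (by fun_prop)
  have hf0 : f 0 = 0 := by simp [f, cut0_zero]
  let g : Finset X → C := fun F => cfcₙ f (c - c * q F)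
  have hgsa : ∀ F, IsSelfAdjoint (c - c * q F) := fun F => hc.sub (hc.mul (hqsa F))
  have hg : ∀ F, ∀ y : X, y.1 (g F) = if y ∈ F then 0 else ((f (y.1 c).re : ℝ) : ℂ) := by
    intro F y
    rw [char_cfc y.1 (hgsa F) hf hf0, map_sub y.1, map_mul y.1, hq]
    split_ifs with h <;> simp [hf0]
  let T : Finset X → Set (WeakDual ℂ (Unitization ℂ A)) := fun F =>
    {φ | φ ((ι (g F) : A) : Unitization ℂ A) = 1}
  have hT : (stateSet (Unitization ℂ A) ∩ ⋂ F, T F).Nonempty := by
    refine isCompact_stateSet.inter_iInter_nonempty T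
      (fun F => isClosed_eq (WeakDual.eval_continuous _) continuous_const) fun u => ?_
    obtain ⟨y, hy, hyF⟩ := Set.Infinite.exists_notMem_finset hinf
      ((u.biUnion id).image Subtype.val)
    obtain ⟨z, hz, hyz⟩ := hy.1
    obtain ⟨e, he, hye⟩ := normalised hz hyz
    obtain ⟨φ, hφ, hφv⟩ := exists_vectorState (Unitization.starLift π) e he
    refine ⟨φ, hφ, mem_iInter₂.2 fun F hF => ?_⟩
    show φ _ = 1
    rw [hφv, starLift_inr, hye]
    have hnot : (⟨y, hy.1⟩ : X) ∉ F := fun h => hyF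
      (Finset.mem_image.2 ⟨⟨y, hy.1⟩, Finset.mem_biUnion.2 ⟨F, hF, h⟩, rfl⟩)
    have hval := hg F ⟨y, hy.1⟩
    rw [if_neg hnot] at hval
    simp only at hval
    have h1 : f (y c).re = 1 := by
      have h2 := half_lt_of_cut0 hy.2
      show cut0 _ = 1
      have h3 : (1 : ℝ) ≤ 4 * (4 * (y c).re ^ 2 / ε ^ 2) - 2 := by
        rw [mul_div_assoc]; linarith
      rw [cut0, min_eq_left h3, max_eq_right zero_le_one]
    rw [hval, h1, Complex.ofReal_one, one_smul, inner_self_eq_norm_sq_to_K, he]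
    simp
  obtain ⟨φ, hφ, hφT⟩ := hT
  rw [mem_iInter] at hφT
  obtain ⟨v, hv, hfix⟩ := fixed_vector S.one S.irr (range fun F => ι (g F)) (by
      rintro _ ⟨F, rfl⟩
      exact (NonUnitalStarAlgHom.norm_apply_le ι _).trans
        (norm_cfc_le_one (fun t => cut0_nonneg _) (fun t => cut0_le _)))
    ⟨_, ∅, rfl⟩ ⟨φ, hφ, by rintro _ ⟨F, rfl⟩; exact hφT F⟩
  have key : ∀ y z, Eig π ι y z → ⟪z, v⟫_ℂ = 0 := by
    intro y z hz
    by_cases hz0 : z = 0
    · rw [hz0, inner_zero_left]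
    rw [← hfix _ ⟨{⟨y, ⟨z, hz0, hz⟩⟩}, rfl⟩]
    beta_reduce
    rw [← star_star (ι (g _)), ← inner_map, ← map_star ι,
      (cfcₙ_predicate f _ : IsSelfAdjoint (g _)).star_eq, hz]
    have h := hg {⟨y, ⟨z, hz0, hz⟩⟩} ⟨y, ⟨z, hz0, hz⟩⟩
    rw [if_pos (Finset.mem_singleton_self _)] at h
    simp only at h
    rw [h, zero_smul, inner_zero_left]
  rw [S.orth_zero hξ0 hx key] at hv
  simp at hv

omit S [CompleteSpace H] in
theorem isCompactOperator_rankOne (u v : H) : IsCompactOperator (rankOne ℂ u v) := by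
  rw [rankOne_def', ContinuousLinearMap.coe_comp]
  exact (isCompactOperator_of_locallyCompactSpace_rng
    (ContinuousLinearMap.toSpanSingleton ℂ u)).comp_clm _

theorem compact_of_sa [Nontrivial A] {c : C} (hc : IsSelfAdjoint c) :
    IsCompactOperator (π (ι c)) := by
  obtain ⟨x, ξ, hξ, hx⟩ := S.exists_start
  have hξ0 : ξ ≠ 0 := by rintro rfl; simp at hξ
  refine isClosed_setOfPred_isCompactOperator.closure_subset ?_
  rw [Metric.mem_closure_iff]
  intro ε hε
  set δ := ε / 2 with hδ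
  have hδ0 : 0 < δ := half_pos hε
  let f : ℝ → ℝ := fun t => t * cut0 (t ^ 2 / δ ^ 2)
  have hf : Continuous f := continuous_id.mul (continuous_cut0.comp (by fun_prop))
  have hf0 : f 0 = 0 := zero_mul _
  refine ⟨π (ι (cfcₙ f c)), ?_, ?_⟩
  swap
  · rw [dist_eq_norm, ← map_sub π, ← map_sub ι]
    refine (NonUnitalStarAlgHom.norm_apply_le π _).trans_lt ?_
    refine (NonUnitalStarAlgHom.norm_apply_le ι _).trans_lt ?_
    have e : c - cfcₙ f c = cfcₙ (fun t => t - f t) c := by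
      rw [cfcₙ_sub (R := ℝ) (fun t => t) f c continuous_id.continuousOn rfl hf.continuousOn hf0,
        cfcₙ_id' ℝ c hc]
    rw [e]
    refine lt_of_le_of_lt (norm_cfcₙ_le (c := δ) fun t _ => ?_) (half_lt_self hε)
    rw [Real.norm_eq_abs, show t - f t = t * (1 - cut0 (t ^ 2 / δ ^ 2)) by simp [f]; ring,
      abs_mul]
    by_cases hbig : δ ^ 2 < t ^ 2
    · have h3 : (1 : ℝ) ≤ 4 * (t ^ 2 / δ ^ 2) - 2 := by
        have : 1 < t ^ 2 / δ ^ 2 := (one_lt_div (by positivity)).2 hbig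
        linarith
      rw [cut0, min_eq_left h3, max_eq_right zero_le_one]
      simp [hδ0.le]
    · have h1 : |t| ≤ δ := abs_le_of_sq_le_sq (not_lt.1 hbig) hδ0.le
      have h2 : |1 - cut0 (t ^ 2 / δ ^ 2)| ≤ 1 := by
        rw [abs_of_nonneg (sub_nonneg.2 (cut0_le _))]; linarith [cut0_nonneg (t ^ 2 / δ ^ 2)]
      calc |t| * |1 - cut0 (t ^ 2 / δ ^ 2)| ≤ δ * 1 :=
            mul_le_mul h1 h2 (abs_nonneg _) hδ0.le
        _ = δ := mul_one _
  · set Y := (S.finite_support hc (ε := δ)).toFinset with hY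
    have hp : ∀ y ∈ Y, ∃ p : C, y p = 1 ∧ (∀ y', IsPoint π ι y' → y' ≠ y → y' p = 0) ∧
        IsCompactOperator (π (ι p)) := by
      intro y hy
      obtain ⟨⟨z, hz, hyz⟩, -⟩ := (Set.Finite.mem_toFinset _).1 hy
      obtain ⟨e, he, hye⟩ := normalised hz hyz
      obtain ⟨p, -, h2, h3, h4⟩ := S.exists_proj he hye
      exact ⟨p, h2, h3, by rw [h4]; exact isCompactOperator_rankOne _ _⟩
    choose! p hp1 hp0 hpc using hp
    have e : ι (cfcₙ f c) = ι (∑ y ∈ Y, y (cfcₙ f c) • p y) := by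
      refine S.ext_eig hξ0 hx fun w z hz => ?_
      rw [hz, hz]
      by_cases hz0 : z = 0
      · simp [hz0]
      congr 1
      rw [map_sum w]
      by_cases hw : w ∈ Y
      · rw [Finset.sum_eq_single_of_mem w hw fun y hy hne => by
          rw [map_smul w, hp0 y hy w ⟨z, hz0, hz⟩ hne.symm, smul_zero]]
        rw [map_smul w, hp1 w hw, smul_eq_mul, mul_one]
      · rw [Finset.sum_eq_zero fun y hy => by
          rw [map_smul w, hp0 y hy w ⟨z, hz0, hz⟩ (fun h => hw (h ▸ hy)), smul_zero]]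
        have : cut0 ((w c).re ^ 2 / δ ^ 2) = 0 := by
          by_contra h
          exact hw ((Set.Finite.mem_toFinset _).2 ⟨⟨z, hz0, hz⟩, h⟩)
        rw [char_cfc w hc hf hf0]
        simp [f, this]
    show IsCompactOperator (π (ι (cfcₙ f c)))
    rw [e, map_sum ι, map_sum π]
    refine Submodule.sum_mem (compactOperator (RingHom.id ℂ) H H) fun y hy => ?_
    rw [map_smul ι, map_smul π]
    exact Submodule.smul_mem _ _ (hpc y hy)

theorem compact_mem [Nontrivial A] (a : A) : IsCompactOperator (π a) := by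
  have hC : ∀ c, IsCompactOperator (π (ι c)) := by
    intro c
    rw [← realPart_add_I_smul_imaginaryPart c, map_add ι, map_smul ι, map_add π, map_smul π]
    exact (S.compact_of_sa (realPart c).2).add ((S.compact_of_sa (imaginaryPart c).2).smul _)
  refine isClosed_setOfPred_isCompactOperator.closure_subset ?_
  rw [Metric.mem_closure_iff]
  intro ε hε
  obtain ⟨c, hc⟩ := S.masa.2.2.1 a ε hε
  refine ⟨π (ι c * a), ?_, ?_⟩
  · show IsCompactOperator (π (ι c * a))
    rw [map_mul π]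
    exact (hC c).comp_clm (π a)
  · rw [dist_comm, dist_eq_norm, ← map_sub π]
    exact (NonUnitalStarAlgHom.norm_apply_le π _).trans_lt hc

theorem rankOne_mem [Nontrivial A] (u v : H) : rankOne ℂ u v ∈ range π := by
  obtain ⟨x, e, he, hx⟩ := S.exists_start
  have he0 : e ≠ 0 := by rintro rfl; simp at he
  obtain ⟨p, hpsa, -, -, hp⟩ := S.exists_proj he hx
  have hR : IsClosed (range π) :=
    (NonUnitalStarAlgHom.isometry π S.injective).isClosedEmbedding.isClosed_range
  have h1 : ∀ a b, rankOne ℂ (π a e) (π b e) ∈ range π := fun a b =>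
    ⟨a * ι p * star b, ContinuousLinearMap.ext fun w => by
      rw [map_mul_apply, map_mul_apply, hp, rankOne_apply, map_smul]
      simp [inner_map]⟩
  have h2 : ∀ a, rankOne ℂ (π a e) v ∈ range π := fun a =>
    closure_minimal (t := {w | rankOne ℂ (π a e) w ∈ range π})
      (by rintro _ ⟨b, rfl⟩; exact h1 a b) (hR.preimage (rankOne ℂ (π a e)).continuous)
      (S.cyclic he0 v)
  exact closure_minimal (t := {w | rankOne ℂ w v ∈ range π}) (by rintro _ ⟨a, rfl⟩; exact h2 a)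
    (hR.preimage (continuous_rankOne_left v)) (S.cyclic he0 u)

theorem compact_in_range [Nontrivial A] {T : H →L[ℂ] H} (hT : IsCompactOperator T) :
    T ∈ range π := by
  have hcl : IsClosed (range π) :=
    (NonUnitalStarAlgHom.isometry π S.injective).isClosedEmbedding.isClosed_range
  refine hcl.closure_subset ?_
  rw [Metric.mem_closure_iff]
  intro ε hε
  have hK := hT.isCompact_closure_image_closedBall (f := T.toLinearMap) 1
  obtain ⟨N, hNfin, hN⟩ := Metric.totallyBounded_iff.1 (hK.totallyBounded.subset subset_closure)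
    (ε / 2) (half_pos hε)
  set K := Submodule.span ℂ N
  have : FiniteDimensional ℂ K := FiniteDimensional.span_of_finite ℂ hNfin
  set b := stdOrthonormalBasis ℂ K
  refine ⟨K.starProjection ∘L T, ?_, ?_⟩
  · rw [b.starProjection_eq_sum_rankOne]
    choose a ha using fun i => S.rankOne_mem (b i : H) (ContinuousLinearMap.adjoint T (b i : H))
    refine ⟨∑ i, a i, ContinuousLinearMap.ext fun w => ?_⟩
    simp [map_sum π, ha, ContinuousLinearMap.adjoint_inner_left]
  · refine lt_of_le_of_lt ?_ (half_lt_self hε)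
    rw [dist_eq_norm]
    refine ContinuousLinearMap.opNorm_le_of_unit_norm (half_pos hε).le fun w hw => ?_
    have hmem : T w ∈ ⋃ y ∈ N, Metric.ball y (ε / 2) :=
      hN ⟨w, by simp [hw], rfl⟩
    obtain ⟨y, hy, hyT⟩ := mem_iUnion₂.1 hmem
    rw [Metric.mem_ball, dist_eq_norm] at hyT
    refine le_trans ?_ hyT.le
    show ‖T w - K.starProjection (T w)‖ ≤ ‖T w - y‖
    rw [K.starProjection_minimal (T w)]
    exact ciInf_le ⟨0, by rintro _ ⟨_, rfl⟩; exact norm_nonneg _⟩
      (⟨y, Submodule.subset_span hy⟩ : K)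

end Setting

/-- A C*-algebra with one irreducible representation up to equivalence and a regular masa is
the algebra of compact operators. -/
theorem naimark_regularMasa (A : Type u) [NonUnitalCStarAlgebra A] [Nontrivial A]
    (hN : OneIrrRep A) (C : Type u) [NonUnitalCommCStarAlgebra C] (ι : C →⋆ₙₐ[ℂ] A)
    (hC : IsRegularMasa ι) :
    ∃ (H : Type u) (_ : NormedAddCommGroup H) (_ : InnerProductSpace ℂ H) (_ : CompleteSpace H)
      (π : A →⋆ₙₐ[ℂ] (H →L[ℂ] H)),
      Function.Injective π ∧ Set.range π = {T : H →L[ℂ] H | IsCompactOperator T} := by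
  refine exists_irrep (A := A) fun K _ _ _ ρ hρ => ?_
  have S : Setting ρ ι := ⟨hN, hρ, hC⟩
  refine ⟨K, inferInstance, inferInstance, inferInstance, ρ, S.injective,
    Set.Subset.antisymm ?_ fun T hT => S.compact_in_range hT⟩
  rintro _ ⟨a, rfl⟩
  exact S.compact_mem a

end Vale.Agent.P070
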