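import Vale.Agent.P070.Bump
import Vale.Agent.P070.Final

/-!
With property (N) and an irreducible representation on a space of density below the continuum,
the image is the compact operators.
-/

namespace Vale.Agent.P070.Small

open scoped InnerProductSpace ComplexOrder
open Set InnerProductSpace Vale.Agent.P070.Tree

universe u

variable {A : Type u} [NonUnitalCStarAlgebra A]
variable {H : Type u} [NormedAddCommGroup H] [InnerProductSpace ℂ H] [CompleteSpace H]
variable {π : A →⋆ₙₐ[ℂ] (H →L[ℂ] H)}

theorem injective (hN : OneIrrRep A) (hπ : IsIrrRep π) : Function.Injective π := by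
  rw [injective_iff_map_eq_zero]
  intro a ha
  by_contra hne
  set a' := ((‖a‖⁻¹ : ℝ) : ℂ) • a with ha'
  have hn : ‖star a' * a'‖ = 1 := by
    rw [CStarRing.norm_star_mul_self, ha', norm_smul]
    simp [norm_ne_zero_iff.2 hne]
  obtain ⟨φ, hφ, hφb⟩ := exists_state_norm _ hn ⟨a', rfl⟩
  obtain ⟨ξ, hξ, hfix⟩ := fixed_vector hN hπ {star a' * a'} (by simp [hn])
    (singleton_nonempty _) ⟨φ, hφ, by simpa using hφb⟩
  have h := hfix _ rfl
  rw [map_mul_apply, ha', map_smul π, ha] at h
  simp at h
  simp [← h] at hξ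

theorem eq_zero_of_killed (hπ : IsIrrRep π) {z : H} (h : ∀ a, π a z = 0) : z = 0 := by
  let K : Submodule ℂ H :=
    { carrier := {z | ∀ a, π a z = 0}
      add_mem' := fun h1 h2 a => by rw [map_add, h1 a, h2 a, add_zero]
      zero_mem' := fun a => map_zero _
      smul_mem' := fun r z h1 a => by rw [map_smul, h1 a, smul_zero] }
  have hK : IsClosed (K : Set H) := by
    show IsClosed {z : H | ∀ a, π a z = 0}
    simp only [ofPred_forall]
    exact isClosed_iInter fun a => isClosed_eq (π a).continuous continuous_const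
  rcases hπ.2 K hK (fun a v hv b => by rw [hv a]; exact map_zero _) with e | e
  · exact (Submodule.mem_bot ℂ).1 (e ▸ h : z ∈ (⊥ : Submodule ℂ H))
  · refine (hπ.1 (NonUnitalStarAlgHom.ext fun a => ?_)).elim
    ext v
    exact (e ▸ Submodule.mem_top : v ∈ K) a

theorem cyclic (hπ : IsIrrRep π) {z : H} (hz : z ≠ 0) : DenseRange fun a => π a z := by
  let M : Submodule ℂ H :=
    { carrier := closure (range fun a => π a z)
      add_mem' := fun h1 h2 => map_mem_closure₂ continuous_add h1 h2 (by
        rintro _ ⟨a, rfl⟩ _ ⟨b, rfl⟩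
        exact ⟨a + b, by simp [map_add π]⟩)
      zero_mem' := subset_closure ⟨0, by simp [map_zero π]⟩
      smul_mem' := fun r v h => map_mem_closure (continuous_const_smul r) h (by
        rintro _ ⟨a, rfl⟩
        exact ⟨r • a, by simp [map_smul π]⟩) }
  rcases hπ.2 M isClosed_closure (fun a v hv => map_mem_closure (π a).continuous hv (by
    rintro _ ⟨b, rfl⟩
    exact ⟨a * b, map_mul_apply a b z⟩)) with e | e
  · refine (hz (eq_zero_of_killed hπ fun a => ?_)).elim
    exact (Submodule.mem_bot ℂ).1 (e ▸ subset_closure ⟨a, rfl⟩ : π a z ∈ (⊥ : Submodule ℂ H))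
  · intro v
    exact (e ▸ Submodule.mem_top : v ∈ M)

theorem exists_unit {z : H} (h : z ≠ 0) : ∃ e : H, ‖e‖ = 1 ∧ e = ((‖z‖⁻¹ : ℝ) : ℂ) • z :=
  ⟨_, by simp [norm_smul, h], rfl⟩

/-- Without minimal projections the tree gives continuum many orthogonal unit vectors. -/
theorem not_noMinimal (hN : OneIrrRep A) (hπ : IsIrrRep π) [Nontrivial A] {S : Set H}
    (hS : Dense S) (hc : Cardinal.mk S < Cardinal.continuum) : ¬ NoMinimal A := by
  intro hA
  obtain ⟨N⟩ := exists_node (A := A)
  choose N₀ N₁ h₀ h₁ horth using fun M : Node A => exists_split hA M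
  let child : Node A → Bool → Node A := fun M b => if b then N₁ M else N₀ M
  have hchild : ∀ M b, M.e * (child M b).e = (child M b).e := fun M b => by
    cases b <;> simp [child, h₀, h₁]
  let node : (ℕ → Bool) → ℕ → Node A := fun f k =>
    Nat.rec N (fun j M => child M (f j)) k
  have fix' : ∀ f m j, (node f j).e * (node f (j + m)).g = (node f (j + m)).g := by
    intro f m
    induction m with
    | zero => intro j; exact (node f j).unit_g
    | succ m ih =>
      intro j
      have h := ih (j + 1)
      rw [show j + 1 + m = j + (m + 1) by omega] at h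
      conv_lhs => rw [← h]
      rw [← mul_assoc, show (node f (j + 1)).e = (child (node f j) (f j)).e from rfl, hchild]
      exact h
  have hv : ∀ f : ℕ → Bool, ∃ v : H, ‖v‖ = 1 ∧ ∀ k, π (node f k).e v = v := by
    intro f
    let t : ℕ → Set (WeakDual ℂ (Unitization ℂ A)) := fun n =>
      {φ | φ ∈ stateSet (Unitization ℂ A) ∧
        ∀ k ≤ n, φ ((node f k).e : Unitization ℂ A) = 1}
    have tcl : ∀ n, IsClosed (t n) := fun n => by
      refine IsClosed.inter isClosed_stateSet ?_
      show IsClosed {φ : WeakDual ℂ (Unitization ℂ A) |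
        ∀ k ≤ n, φ ((node f k).e : Unitization ℂ A) = 1}
      simp only [ofPred_forall]
      exact isClosed_biInter fun k _ => isClosed_eq (WeakDual.eval_continuous _) continuous_const
    have tne : ∀ n, (t n).Nonempty := by
      intro n
      have hg : π (node f n).g ≠ 0 := fun h =>
        (node f n).g_ne (injective hN hπ (by rw [h, map_zero π]))
      obtain ⟨z, hz⟩ : ∃ z, π (node f n).g z ≠ 0 := by
        by_contra hc
        push Not at hc
        exact hg (ContinuousLinearMap.ext hc)
      obtain ⟨e, he, hedef⟩ := exists_unit hz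
      obtain ⟨φ, hφ, hφv⟩ := exists_vectorState (Unitization.starLift π) e he
      refine ⟨φ, hφ, fun k hk => ?_⟩
      obtain ⟨m, rfl⟩ := Nat.exists_eq_add_of_le hk
      have hfe : π (node f k).e e = e := by
        rw [hedef, map_smul, ← map_mul_apply, fix']
      rw [hφv, starLift_inr, hfe, inner_self_eq_norm_sq_to_K, he]
      simp
    obtain ⟨φ, hφ⟩ := IsCompact.nonempty_iInter_of_sequence_nonempty_isCompact_isClosed t
      (fun n φ h => ⟨h.1, fun k hk => h.2 k (hk.trans (Nat.le_succ n))⟩) tne
      (isCompact_stateSet.of_isClosed_subset (tcl 0) fun φ h => h.1) tcl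
    rw [mem_iInter] at hφ
    obtain ⟨v, hv, hfix⟩ := fixed_vector hN hπ (range fun k => (node f k).e)
      (by rintro _ ⟨k, rfl⟩; exact (node f k).e_le) ⟨_, 0, rfl⟩
      ⟨φ, (hφ 0).1, by rintro _ ⟨k, rfl⟩; exact (hφ k).2 k le_rfl⟩
    exact ⟨v, hv, fun k => hfix _ ⟨k, rfl⟩⟩
  choose v hv1 hvfix using hv
  have orth : ∀ f g : ℕ → Bool, f ≠ g → ⟪v f, v g⟫_ℂ = 0 := by
    intro f g hfg
    have hex : ∃ k, f k ≠ g k := Function.ne_iff.1 hfg
    set k := Nat.find hex with hk
    have hk1 : f k ≠ g k := Nat.find_spec hex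
    have heq : ∀ j ≤ k, node f j = node g j := by
      intro j
      induction j with
      | zero => intro; rfl
      | succ j ih =>
        intro hj
        have hfj : f j = g j := by
          by_contra h
          exact absurd (Nat.find_min' hex h) (by omega)
        show child (node f j) (f j) = child (node g j) (g j)
        rw [ih (by omega), hfj]
    have hmul : (node f (k + 1)).e * (node g (k + 1)).e = 0 := by
      show (child (node f k) (f k)).e * (child (node g k) (g k)).e = 0
      rw [heq k le_rfl]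
      rcases hf : f k <;> rcases hg : g k <;> simp_all [child]
      have h := congrArg star (horth (node g k))
      rwa [star_mul, star_zero, (N₀ _).e_sa.star_eq, (N₁ _).e_sa.star_eq] at h
    rw [← hvfix f (k + 1), ← hvfix g (k + 1), inner_map, (node f (k + 1)).e_sa.star_eq,
      ← map_mul_apply, hmul, map_zero π]
    simp
  have hs : ∀ f, ∃ s : S, ‖v f - s‖ < 1 / 2 := by
    intro f
    obtain ⟨s, hs, hlt⟩ := hS.exists_dist_lt (v f) (show (0 : ℝ) < 1 / 2 by norm_num)
    exact ⟨⟨s, hs⟩, by rwa [← dist_eq_norm]⟩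
  choose s hs using hs
  have hinj : Function.Injective s := by
    intro f g hfg
    by_contra hne
    have h1 : ‖v f - v g‖ < 1 := by
      have h2 := hs g
      rw [← hfg] at h2
      have := norm_sub_le_norm_sub_add_norm_sub (v f) (s f : H) (v g)
      rw [norm_sub_rev (s f : H) (v g)] at this
      linarith [hs f]
    have h3 := norm_sub_sq (𝕜 := ℂ) (v f) (v g)
    rw [orth f g hne, hv1, hv1] at h3
    simp at h3
    nlinarith [norm_nonneg (v f - v g)]
  have hle := Cardinal.lift_mk_le'.2 ⟨⟨s, hinj⟩⟩
  simp only [Cardinal.mk_arrow, Cardinal.mk_bool, Cardinal.mk_nat, Cardinal.lift_power,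
    Cardinal.lift_ofNat, Cardinal.lift_aleph0, Cardinal.two_power_aleph0,
    Cardinal.lift_continuum, Cardinal.lift_id'] at hle
  exact absurd hc (not_lt.2 (by simpa using hle))

theorem rankOne_mem (hN : OneIrrRep A) (hπ : IsIrrRep π) {p : A} (hp0 : p ≠ 0)
    (hp : IsSelfAdjoint p) (hpp : p * p = p) (hmin : ∀ a, ∃ r : ℂ, p * a * p = r • p)
    (u v : H) : rankOne ℂ u v ∈ range π := by
  have hπp : π p ≠ 0 := fun h => hp0 (injective hN hπ (by rw [h, map_zero π]))
  obtain ⟨z, hz⟩ : ∃ z, π p z ≠ 0 := by
    by_contra hc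
    push Not at hc
    exact hπp (ContinuousLinearMap.ext hc)
  obtain ⟨e, he, hedef⟩ := exists_unit hz
  have he0 : e ≠ 0 := by rintro rfl; simp at he
  have hpe : π p e = e := by rw [hedef, map_smul, ← map_mul_apply, hpp]
  have hline : ∀ w, π p w ∈ Submodule.span ℂ {e} := by
    intro w
    refine closure_minimal ?_ ((Submodule.closed_of_finiteDimensional _).preimage
      (π p).continuous) (cyclic hπ he0 w)
    rintro _ ⟨a, rfl⟩
    obtain ⟨r, hr⟩ := hmin a
    refine Submodule.mem_span_singleton.2 ⟨r, ?_⟩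
    calc r • e = π (p * a * p) e := by rw [hr, map_smul π, smul_apply, hpe]
      _ = π p (π a (π p e)) := by rw [map_mul_apply, map_mul_apply]
      _ = π p (π a e) := by rw [hpe]
  have hP : π p = rankOne ℂ e e := by
    refine ContinuousLinearMap.ext fun w => ?_
    obtain ⟨r, hr⟩ := Submodule.mem_span_singleton.1 (hline w)
    rw [rankOne_apply, ← hr]
    congr 1
    have h : ⟪e, r • e⟫_ℂ = ⟪e, w⟫_ℂ := by
      rw [hr, ← star_star p, ← inner_map, hp.star_eq, hpe]
    simpa [inner_smul_right, inner_self_eq_norm_sq_to_K, he] using h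
  have hR : IsClosed (range π) :=
    (NonUnitalStarAlgHom.isometry π (injective hN hπ)).isClosedEmbedding.isClosed_range
  have h1 : ∀ a b, rankOne ℂ (π a e) (π b e) ∈ range π := fun a b =>
    ⟨a * p * star b, ContinuousLinearMap.ext fun w => by
      rw [map_mul_apply, map_mul_apply, hP, rankOne_apply, map_smul]
      simp [inner_map]⟩
  have h2 : ∀ a, rankOne ℂ (π a e) v ∈ range π := fun a =>
    closure_minimal (t := {w | rankOne ℂ (π a e) w ∈ range π})
      (by rintro _ ⟨b, rfl⟩; exact h1 a b) (hR.preimage (rankOne ℂ (π a e)).continuous)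
      (cyclic hπ he0 v)
  exact closure_minimal (t := {w | rankOne ℂ w v ∈ range π}) (by rintro _ ⟨a, rfl⟩; exact h2 a)
    (hR.preimage (continuous_rankOne_left v)) (cyclic hπ he0 u)

theorem compact_in_range (hN : OneIrrRep A) (hπ : IsIrrRep π)
    (hR : ∀ u v : H, rankOne ℂ u v ∈ range π) {T : H →L[ℂ] H} (hT : IsCompactOperator T) :
    T ∈ range π := by
  have hcl : IsClosed (range π) :=
    (NonUnitalStarAlgHom.isometry π (injective hN hπ)).isClosedEmbedding.isClosed_range
  refine hcl.closure_subset ?_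
  rw [Metric.mem_closure_iff]
  intro ε hε
  have hK := hT.isCompact_closure_image_closedBall (f := T.toLinearMap) 1
  obtain ⟨N, hNfin, hN'⟩ := Metric.totallyBounded_iff.1 (hK.totallyBounded.subset subset_closure)
    (ε / 2) (half_pos hε)
  set K := Submodule.span ℂ N
  have : FiniteDimensional ℂ K := FiniteDimensional.span_of_finite ℂ hNfin
  set b := stdOrthonormalBasis ℂ K
  refine ⟨K.starProjection ∘L T, ?_, ?_⟩
  · rw [b.starProjection_eq_sum_rankOne]
    choose a ha using fun i => hR (b i : H) (ContinuousLinearMap.adjoint T (b i : H))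
    refine ⟨∑ i, a i, ContinuousLinearMap.ext fun w => ?_⟩
    simp [map_sum π, ha, ContinuousLinearMap.adjoint_inner_left]
  · refine lt_of_le_of_lt ?_ (half_lt_self hε)
    rw [dist_eq_norm]
    refine ContinuousLinearMap.opNorm_le_of_unit_norm (half_pos hε).le fun w hw => ?_
    have hmem : T w ∈ ⋃ y ∈ N, Metric.ball y (ε / 2) := hN' ⟨w, by simp [hw], rfl⟩
    obtain ⟨y, hy, hyT⟩ := mem_iUnion₂.1 hmem
    rw [Metric.mem_ball, dist_eq_norm] at hyT
    refine le_trans ?_ hyT.le
    show ‖T w - K.starProjection (T w)‖ ≤ ‖T w - y‖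
    rw [K.starProjection_minimal (T w)]
    exact ciInf_le ⟨0, by rintro _ ⟨_, rfl⟩; exact norm_nonneg _⟩
      (⟨y, Submodule.subset_span hy⟩ : K)

theorem compact_mem (hN : OneIrrRep A) (hπ : IsIrrRep π)
    (hR : ∀ u v : H, rankOne ℂ u v ∈ range π) (a : A) : IsCompactOperator (π a) := by
  suffices hsa : ∀ c : A, IsSelfAdjoint c → IsCompactOperator (π c) by
    rw [← realPart_add_I_smul_imaginaryPart a, map_add π, map_smul π]
    exact (hsa _ (realPart a).2).add ((hsa _ (imaginaryPart a).2).smul _)
  intro c hc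
  refine isClosed_setOfPred_isCompactOperator.closure_subset ?_
  rw [Metric.mem_closure_iff]
  intro ε hε
  set δ := ε / 2 with hδ
  have hδ0 : 0 < δ := half_pos hε
  let f : ℝ → ℝ := fun t => t * cut0 (t ^ 2 / δ ^ 2)
  have hf : Continuous f := continuous_id.mul (continuous_cut0.comp (by fun_prop))
  have hf0 : f 0 = 0 := zero_mul _
  let e1 : ℝ → ℝ := fun t => cut0 (4 * t ^ 2 / δ ^ 2)
  have he1 : Continuous e1 := continuous_cut0.comp (by fun_prop)
  have he10 : e1 0 = 0 := by simp [e1, cut0_zero]
  refine ⟨π (cfcₙ f c), ?_, ?_⟩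
  · show IsCompactOperator (π (cfcₙ f c))
    set E := cfcₙ e1 c with hE
    have hEc : E * cfcₙ f c = cfcₙ f c := by
      rw [hE, ← cfcₙ_mul e1 f c he1.continuousOn he10 hf.continuousOn hf0]
      refine cfcₙ_congr fun t _ => ?_
      by_cases h : cut0 (t ^ 2 / δ ^ 2) = 0
      · simp [f, h]
      have h2 := half_lt_of_cut0 h
      have h3 : (1 : ℝ) ≤ 4 * (4 * t ^ 2 / δ ^ 2) - 2 := by rw [mul_div_assoc]; linarith
      rw [show e1 t = 1 by show cut0 _ = 1; rw [cut0, min_eq_left h3, max_eq_right zero_le_one],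
        one_mul]
    by_contra hnc
    have pick : ∀ F : Finset H, ∃ e : H, ‖e‖ = 1 ∧ π E e = e ∧ ∀ x ∈ F, ⟪x, e⟫_ℂ = 0 := by
      intro F
      by_contra hno
      refine hnc ?_
      set W := Submodule.span ℂ (F : Set H)
      have : FiniteDimensional ℂ W := FiniteDimensional.span_of_finite ℂ F.finite_toSet
      let L : LinearMap.range (π (cfcₙ f c)).toLinearMap →ₗ[ℂ] W :=
        W.orthogonalProjectionOnto.toLinearMap ∘ₗ Submodule.subtype _
      have hL : Function.Injective L := by
        rw [← LinearMap.ker_eq_bot, LinearMap.ker_eq_bot']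
        rintro ⟨_, z, rfl⟩ hz
        by_contra h0
        have h0' : π (cfcₙ f c) z ≠ 0 := fun h => h0 (Subtype.ext h)
        obtain ⟨e, he, hedef⟩ := exists_unit h0'
        refine hno ⟨e, he, by rw [hedef, map_smul, ← map_mul_apply, hEc], fun x hx => ?_⟩
        have hperp : π (cfcₙ f c) z ∈ Wᗮ :=
          Submodule.orthogonalProjectionOnto_eq_zero_iff.1 hz
        rw [hedef, inner_smul_right,
          Submodule.inner_right_of_mem_orthogonal (Submodule.subset_span hx) hperp, mul_zero]
      have : FiniteDimensional ℂ (LinearMap.range (π (cfcₙ f c)).toLinearMap) :=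
        FiniteDimensional.of_injective L hL
      have hfac : (π (cfcₙ f c) : H → H) =
          (Submodule.subtypeL (LinearMap.range (π (cfcₙ f c)).toLinearMap)) ∘
            ((π (cfcₙ f c)).codRestrict _ fun z => LinearMap.mem_range_self _ z) := rfl
      rw [hfac]
      have : ProperSpace (LinearMap.range (π (cfcₙ f c)).toLinearMap) :=
        FiniteDimensional.proper ℂ _
      have hsub : IsCompactOperator
          (Submodule.subtypeL (LinearMap.range (π (cfcₙ f c)).toLinearMap) : _ →L[ℂ] H) :=
        isCompactOperator_of_locallyCompactSpace_rng _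
      exact hsub.comp_clm _
    choose pk hpk1 hpk2 hpk3 using pick
    have hp : ∀ F : Finset H, ∃ q : A, π q = (Submodule.span ℂ (F : Set H)).starProjection := by
      intro F
      set b := stdOrthonormalBasis ℂ (Submodule.span ℂ (F : Set H))
      choose q hq using fun i => hR (b i : H) (b i : H)
      exact ⟨∑ i, q i, by rw [map_sum π, b.starProjection_eq_sum_rankOne]; simp [hq]⟩
    choose q hq using hp
    let g : Finset H → A := fun F => E - q F * E
    have hg : ∀ F z, π (g F) z =
        π E z - (Submodule.span ℂ (F : Set H)).starProjection (π E z) := fun F z => by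
      rw [map_sub π, sub_apply, map_mul_apply, hq]
    have hg1 : ∀ F, ‖g F‖ ≤ 1 := fun F => by
      rw [← NonUnitalStarAlgHom.norm_map π (injective hN hπ)]
      refine ContinuousLinearMap.opNorm_le_bound _ zero_le_one fun z => ?_
      rw [hg, ← Submodule.starProjection_orthogonal_val]
      refine (Submodule.norm_starProjection_apply_le _ _).trans ((map_cont E z).trans ?_)
      exact mul_le_mul_of_nonneg_right
        (norm_cfc_le (fun t => cut0_nonneg _) fun t => cut0_le _) (norm_nonneg z)
    classical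
    let T : Finset H → Set (WeakDual ℂ (Unitization ℂ A)) := fun F =>
      {φ | φ ((g F : A) : Unitization ℂ A) = 1}
    obtain ⟨φ, hφ, hφT⟩ := isCompact_stateSet.inter_iInter_nonempty T
      (fun F => isClosed_eq (WeakDual.eval_continuous _) continuous_const) fun us => by
        obtain ⟨φ, hφ, hφv⟩ := exists_vectorState (Unitization.starLift π) (pk (us.biUnion id))
          (hpk1 _)
        refine ⟨φ, hφ, mem_iInter₂.2 fun F hF => ?_⟩
        show φ _ = 1
        have h0 : (Submodule.span ℂ (F : Set H)).starProjection (pk (us.biUnion id)) = 0 := by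
          rw [Submodule.starProjection_apply_eq_zero_iff, Submodule.mem_orthogonal]
          intro x hx
          induction hx using Submodule.span_induction with
          | mem x hx => exact hpk3 _ x (Finset.mem_biUnion.2 ⟨F, hF, hx⟩)
          | zero => exact inner_zero_left _
          | add x y _ _ hx hy => rw [inner_add_left, hx, hy, add_zero]
          | smul r x _ hx => rw [inner_smul_left, hx, mul_zero]
        rw [hφv, starLift_inr, hg, hpk2, h0, sub_zero, inner_self_eq_norm_sq_to_K, hpk1]
        simp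
    rw [mem_iInter] at hφT
    obtain ⟨v, hv, hfix⟩ := fixed_vector hN hπ (range g)
      (by rintro _ ⟨F, rfl⟩; exact hg1 F) ⟨_, ∅, rfl⟩
      ⟨φ, hφ, by rintro _ ⟨F, rfl⟩; exact hφT F⟩
    have h := hfix _ ⟨{v}, rfl⟩
    rw [hg] at h
    have h2 : ⟪v, π (g {v}) v⟫_ℂ = 0 := by
      rw [hg, ← Submodule.starProjection_orthogonal_val]
      exact Submodule.inner_right_of_mem_orthogonal (Submodule.subset_span (by simp))
        (Submodule.starProjection_apply_mem _ _)
    rw [hfix _ ⟨{v}, rfl⟩, inner_self_eq_norm_sq_to_K, hv] at h2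
    simp at h2
  · rw [dist_eq_norm, ← map_sub π]
    refine (NonUnitalStarAlgHom.norm_apply_le π _).trans_lt ?_
    have e : c - cfcₙ f c = cfcₙ (fun t => t - f t) c := by
      rw [cfcₙ_sub (R := ℝ) (fun t => t) f c continuous_id.continuousOn rfl hf.continuousOn hf0,
        cfcₙ_id' ℝ c hc]
    rw [e]
    refine lt_of_le_of_lt (norm_cfcₙ_le (c := δ) fun t _ => ?_) (half_lt_self hε)
    rw [Real.norm_eq_abs, show t - f t = t * (1 - cut0 (t ^ 2 / δ ^ 2)) by simp [f]; ring,
      abs_mul]
    by_cases hbig : δ ^ 2 < t ^ 2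
    · have h3 : (1 : ℝ) ≤ 4 * (t ^ 2 / δ ^ 2) - 2 := by
        have : 1 < t ^ 2 / δ ^ 2 := (one_lt_div (by positivity)).2 hbig
        linarith
      rw [cut0, min_eq_left h3, max_eq_right zero_le_one]
      simp [hδ0.le]
    · have h1 : |t| ≤ δ := abs_le_of_sq_le_sq (not_lt.1 hbig) hδ0.le
      have h2 : |1 - cut0 (t ^ 2 / δ ^ 2)| ≤ 1 := by
        rw [abs_of_nonneg (sub_nonneg.2 (cut0_le _))]; linarith [cut0_nonneg (t ^ 2 / δ ^ 2)]
      calc |t| * |1 - cut0 (t ^ 2 / δ ^ 2)| ≤ δ * 1 :=
            mul_le_mul h1 h2 (abs_nonneg _) hδ0.le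
        _ = δ := mul_one _

/-- The density of the representation space decides. -/
theorem range_eq_compact (hN : OneIrrRep A) (hπ : IsIrrRep π) [Nontrivial A] {S : Set H}
    (hS : Dense S) (hc : Cardinal.mk S < Cardinal.continuum) :
    Function.Injective π ∧ range π = {T : H →L[ℂ] H | IsCompactOperator T} := by
  obtain ⟨p, hp0, hp, hpp, hmin⟩ := not_not.1 (not_noMinimal hN hπ hS hc)
  have hR := rankOne_mem hN hπ hp0 hp hpp hmin
  refine ⟨injective hN hπ, Subset.antisymm ?_ fun T hT => compact_in_range hN hπ hR hT⟩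
  rintro _ ⟨a, rfl⟩
  exact compact_mem hN hπ hR a

end Vale.Agent.P070.Small
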