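import Mathlib

/-!
States of unital C*-algebras, and irreducible representations from faces of states.
-/

namespace Vale.Agent.P070

open scoped InnerProductSpace ComplexOrder
open Set

universe u

section Unital

variable {B : Type u} [CStarAlgebra B]

/-- States, as unital functionals of norm at most one. -/
def stateSet (B : Type u) [CStarAlgebra B] : Set (WeakDual ℂ B) :=
  {f | (∀ b, ‖f b‖ ≤ ‖b‖) ∧ f 1 = 1}

theorem isClosed_stateSet : IsClosed (stateSet B) := by
  refine IsClosed.inter ?_ (isClosed_eq (WeakDual.eval_continuous _) continuous_const)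
  show IsClosed {f : WeakDual ℂ B | ∀ b, ‖f b‖ ≤ ‖b‖}
  rw [ofPred_forall]
  exact isClosed_iInter fun b => isClosed_le (WeakDual.eval_continuous b).norm continuous_const

theorem isCompact_stateSet : IsCompact (stateSet B) := by
  refine (WeakDual.isCompact_closedBall (𝕜 := ℂ) (E := B) 0 1).of_isClosed_subset
    isClosed_stateSet (fun f hf => ?_)
  simp only [mem_preimage, mem_closedBall_zero_iff]
  exact ContinuousLinearMap.opNorm_le_bound _ zero_le_one fun b => by simpa using hf.1 b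

/-- Extend a unital contractive functional from a subspace to a state. -/
theorem exists_state_extend (p : Submodule ℂ B) (f : p →ₗ[ℂ] ℂ) (h1 : (1 : B) ∈ p)
    (hf1 : f ⟨1, h1⟩ = 1) (hf : ∀ y : p, ‖f y‖ ≤ ‖(y : B)‖) :
    ∃ φ ∈ stateSet B, ∀ y : p, φ (y : B) = f y := by
  obtain ⟨g, hg, hgn⟩ := exists_extension_norm_eq p
    (f.mkContinuous 1 (fun y => by simpa using hf y))
  have hn : ‖g‖ ≤ 1 := hgn ▸ LinearMap.mkContinuous_norm_le _ zero_le_one _
  refine ⟨StrongDual.toWeakDual g, ⟨fun b => ?_, ?_⟩, fun y => hg y⟩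
  · exact (g.le_opNorm b).trans (mul_le_of_le_one_left (norm_nonneg b) hn)
  · exact (hg ⟨1, h1⟩).trans hf1

/-- A character of a commutative subalgebra extends to a state. -/
theorem exists_state_of_character {D : Type u} [CommCStarAlgebra D] (j : D →⋆ₐ[ℂ] B)
    (hj : Function.Injective j) (χ : WeakDual.characterSpace ℂ D) :
    ∃ φ ∈ stateSet B, ∀ d, φ (j d) = χ d := by
  have : Nontrivial D := ⟨⟨1, 0, fun h => one_ne_zero (α := ℂ) (by
    have e := congrArg χ h
    rwa [map_one χ, map_zero χ] at e)⟩⟩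
  set jl : D →ₗ[ℂ] B := j.toAlgHom.toLinearMap with hjl
  let e := LinearEquiv.ofInjective jl hj
  let f : LinearMap.range jl →ₗ[ℂ] ℂ :=
    (WeakDual.toStrongDual (χ : WeakDual ℂ D)).toLinearMap ∘ₗ e.symm.toLinearMap
  have hfe : ∀ d, f (e d) = χ d := fun d => by simp [f]
  have h1 : (1 : B) ∈ LinearMap.range jl := ⟨1, map_one j⟩
  obtain ⟨φ, hφ, hφf⟩ := exists_state_extend (LinearMap.range jl) f h1
    (by
      rw [show (⟨1, h1⟩ : LinearMap.range jl) = e 1 from Subtype.ext (map_one j).symm, hfe]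
      exact map_one χ)
    (fun y => by
      obtain ⟨d, rfl⟩ := e.surjective y
      rw [hfe]
      refine (spectrum.norm_le_norm_of_mem (AlgHom.apply_mem_spectrum χ d)).trans ?_
      exact le_of_eq (NonUnitalStarAlgHom.norm_map j hj d).symm)
  exact ⟨φ, hφ, fun d => (hφf (e d)).trans (hfe d)⟩

theorem state_im_eq_zero {φ : WeakDual ℂ B} (hφ : φ ∈ stateSet B) {b : B}
    (hb : IsSelfAdjoint b) : (φ b).im = 0 := by
  have key : ∀ t : ℝ, ((φ b).im + t) ^ 2 ≤ ‖b‖ ^ 2 + t ^ 2 := by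
    intro t
    set c : B := b + ((t : ℂ) * Complex.I) • 1 with hc
    have h1 : φ c = φ b + (t : ℂ) * Complex.I := by
      simp [hc, map_add, map_smul, hφ.2]
    have hs : star c * c = b * b + ((t ^ 2 : ℝ) : ℂ) • (1 : B) := by
      simp only [hc, star_add, star_smul, star_one, hb.star_eq, Complex.star_def, map_mul,
        Complex.conj_ofReal, Complex.conj_I, add_mul, mul_add, smul_mul_assoc, mul_smul_comm,
        one_mul, mul_one, smul_smul, smul_add]
      rw [show (t : ℂ) * Complex.I * ((t : ℂ) * -Complex.I) = ((t ^ 2 : ℝ) : ℂ) by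
        push_cast; linear_combination (-(t : ℂ) ^ 2) * Complex.I_sq]
      module
    have h2 : ‖c‖ ^ 2 ≤ ‖b‖ ^ 2 + t ^ 2 := by
      have hone : ‖(1 : B)‖ ≤ 1 := by
        rcases subsingleton_or_nontrivial B with h | h
        · simp [Subsingleton.elim (1 : B) 0]
        · simp
      rw [sq, ← CStarRing.norm_star_mul_self, hs]
      refine (norm_add_le _ _).trans (add_le_add ?_ ?_)
      · exact (norm_mul_le b b).trans (by rw [sq])
      · rw [norm_smul, Complex.norm_real, Real.norm_eq_abs, abs_of_nonneg (sq_nonneg t)]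
        exact mul_le_of_le_one_right (sq_nonneg t) hone
    have h3 := hφ.1 c
    rw [h1] at h3
    have h4 := Complex.abs_im_le_norm (φ b + (t : ℂ) * Complex.I)
    simp only [Complex.add_im, Complex.mul_im, Complex.ofReal_re, Complex.I_im, mul_one,
      Complex.ofReal_im, zero_mul, add_zero] at h4
    nlinarith [abs_nonneg ((φ b).im + t), sq_abs ((φ b).im + t), norm_nonneg c]
  by_contra h
  have := key ((‖b‖ ^ 2 + 1) / (2 * (φ b).im))
  have e : 2 * (φ b).im * ((‖b‖ ^ 2 + 1) / (2 * (φ b).im)) = ‖b‖ ^ 2 + 1 := by field_simp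
  nlinarith [sq_nonneg (φ b).im]

/-- A state as a positive linear map. -/
noncomputable def statePos [PartialOrder B] [StarOrderedRing B] {φ : WeakDual ℂ B}
    (hφ : φ ∈ stateSet B) : B →ₚ[ℂ] ℂ :=
  PositiveLinearMap.mk₀ (WeakDual.toStrongDual φ).toLinearMap fun b hb => by
    show (0 : ℂ) ≤ φ b
    have him := state_im_eq_zero hφ (IsSelfAdjoint.of_nonneg hb)
    rw [Complex.nonneg_iff]
    refine ⟨?_, him.symm⟩
    have hle : b ≤ algebraMap ℝ B ‖b‖ := IsSelfAdjoint.le_algebraMap_norm_self (.of_nonneg hb)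
    have hn : ‖algebraMap ℝ B ‖b‖ - b‖ ≤ ‖b‖ :=
      (CStarAlgebra.norm_le_iff_le_algebraMap _ (norm_nonneg b) (sub_nonneg.2 hle)).2
        (sub_le_self _ hb)
    have h := hφ.1 (algebraMap ℝ B ‖b‖ - b)
    rw [Algebra.algebraMap_eq_smul_one, ← Complex.coe_smul, map_sub, map_smul, hφ.2] at h
    have h' := Complex.re_le_norm ((‖b‖ : ℂ) • (1 : ℂ) - φ b)
    simp only [smul_eq_mul, mul_one, Complex.sub_re, Complex.ofReal_re] at h h'
    rw [Algebra.algebraMap_eq_smul_one, ← Complex.coe_smul] at hn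
    linarith

theorem statePos_apply [PartialOrder B] [StarOrderedRing B] {φ : WeakDual ℂ B}
    (hφ : φ ∈ stateSet B) (b : B) : statePos hφ b = φ b := rfl

/-- In a disc, the point one is extreme. -/
theorem eq_one_of_combo {z w : ℂ} {s t : ℝ} (hz : ‖z‖ ≤ 1) (hw : ‖w‖ ≤ 1) (hs : 0 < s)
    (ht : 0 < t) (hst : s + t = 1) (h : s • z + t • w = 1) : z = 1 := by
  have h' := congrArg Complex.re h
  simp only [Complex.add_re, Complex.real_smul, Complex.re_ofReal_mul, Complex.one_re] at h'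
  have h1 := Complex.re_le_norm z
  have h2 := Complex.re_le_norm w
  have hre : z.re = 1 := by nlinarith
  have h3 : z.re ^ 2 + z.im ^ 2 ≤ 1 := by
    have := Complex.normSq_eq_norm_sq z
    rw [Complex.normSq_apply] at this
    nlinarith [norm_nonneg z]
  apply Complex.ext
  · simpa using hre
  · rw [Complex.one_im]; nlinarith

/-- Every consistent family of contractions is fixed in a representation of a pure state. -/
theorem exists_pure (P : Set B) (hP : ∀ a ∈ P, ‖a‖ ≤ 1)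
    (h : ∃ φ ∈ stateSet B, ∀ a ∈ P, φ a = 1) :
    ∃ φ ∈ extremePoints ℝ (stateSet B), ∀ a ∈ P, φ a = 1 := by
  set F := {φ | φ ∈ stateSet B ∧ ∀ a ∈ P, φ a = 1} with hF
  have hFc : IsCompact F := by
    refine isCompact_stateSet.of_isClosed_subset ?_ fun φ hφ => hφ.1
    refine IsClosed.inter isClosed_stateSet ?_
    show IsClosed {φ : WeakDual ℂ B | ∀ a ∈ P, φ a = 1}
    simp only [ofPred_forall]
    exact isClosed_biInter fun a _ => isClosed_eq (WeakDual.eval_continuous a) continuous_const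
  obtain ⟨φ, hφ, hφP⟩ := h
  have : LocallyConvexSpace ℝ (WeakDual ℂ B) := WeakBilin.locallyConvexSpace
  obtain ⟨ψ, hψ⟩ := hFc.extremePoints_nonempty ⟨φ, hφ, hφP⟩
  refine ⟨ψ, ?_, hψ.1.2⟩
  refine IsExtreme.extremePoints_subset_extremePoints ⟨fun x hx => hx.1, ?_⟩ hψ
  rintro x1 hx1 x2 hx2 x hx ⟨s, t, hs, ht, hst, rfl⟩
  refine ⟨hx1, fun a ha => eq_one_of_combo ((hx1.1 a).trans (hP a ha))
    ((hx2.1 a).trans (hP a ha)) hs ht hst ?_⟩
  exact hx.2 a ha

end Unital

section Irred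

variable {H : Type u} [NormedAddCommGroup H] [InnerProductSpace ℂ H] [CompleteSpace H]
variable {B : Type u} [CStarAlgebra B]

theorem vectorState_mem (π : B →⋆ₐ[ℂ] (H →L[ℂ] H)) (ξ : H) (hξ : ‖ξ‖ = 1) :
    StrongDual.toWeakDual ((innerSL ℂ ξ).comp
      ((ContinuousLinearMap.apply ℂ H ξ).comp
        (LinearMap.mkContinuous (π.toAlgHom.toLinearMap) 1
          fun b => by simpa using NonUnitalStarAlgHom.norm_apply_le π b))) ∈ stateSet B := by
  refine ⟨fun b => ?_, ?_⟩
  · show ‖⟪ξ, π b ξ⟫_ℂ‖ ≤ ‖b‖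
    refine (norm_inner_le_norm _ _).trans ?_
    rw [hξ, one_mul]
    exact ((π b).le_opNorm ξ).trans
      (by rw [hξ, mul_one]; exact NonUnitalStarAlgHom.norm_apply_le π b)
  · show ⟪ξ, π 1 ξ⟫_ℂ = 1
    simp [inner_self_eq_norm_sq_to_K, hξ]

theorem exists_vectorState (π : B →⋆ₐ[ℂ] (H →L[ℂ] H)) (ξ : H) (hξ : ‖ξ‖ = 1) :
    ∃ φ ∈ stateSet B, ∀ b, φ b = ⟪ξ, π b ξ⟫_ℂ :=
  ⟨_, vectorState_mem π ξ hξ, fun _ => rfl⟩

theorem adjoint_map (π : B →⋆ₐ[ℂ] (H →L[ℂ] H)) (b : B) (u v : H) :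
    ⟪π b u, v⟫_ℂ = ⟪u, π (star b) v⟫_ℂ := by
  rw [map_star π, ContinuousLinearMap.star_eq_adjoint, ContinuousLinearMap.adjoint_inner_right]

/-- A cyclic vector of an extreme state gives an irreducible representation. -/
theorem invariant_trivial (π : B →⋆ₐ[ℂ] (H →L[ℂ] H)) (ξ : H) {φ : WeakDual ℂ B}
    (hφ : φ ∈ extremePoints ℝ (stateSet B)) (hξ : ∀ b, ⟪ξ, π b ξ⟫_ℂ = φ b)
    (hcyc : DenseRange fun b => π b ξ) (M : Submodule ℂ H) (hM : IsClosed (M : Set H))
    (hinv : ∀ b, ∀ v ∈ M, π b v ∈ M) : M = ⊥ ∨ M = ⊤ := by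
  have : CompleteSpace M := hM.completeSpace_coe
  set P := M.starProjection with hPdef
  have hperp : ∀ b, ∀ v ∈ Mᗮ, π b v ∈ Mᗮ := by
    intro b v hv
    rw [Submodule.mem_orthogonal] at hv ⊢
    intro w hw
    have h := hv _ (hinv (star b) w hw)
    rwa [adjoint_map, star_star] at h
  have hcomm : ∀ b z, P (π b z) = π b (P z) := by
    intro b z
    refine Submodule.eq_starProjection_of_mem_of_inner_eq_zero
      (hinv b _ (M.starProjection_apply_mem z)) fun w hw => ?_
    rw [← map_sub, inner_eq_zero_symm]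
    exact Submodule.inner_right_of_mem_orthogonal hw
      (hperp b _ (M.sub_starProjection_mem_orthogonal z))
  have top_of_mem : ξ ∈ M → M = ⊤ := by
    intro h
    refine Submodule.eq_top_iff'.2 fun z => ?_
    exact hM.closure_subset_iff.2 (range_subset_iff.2 fun b => hinv b ξ h) (hcyc z)
  set u := P ξ with hu
  set v := ξ - u with hv
  have huM : u ∈ M := M.starProjection_apply_mem ξ
  have hvM : v ∈ Mᗮ := M.sub_starProjection_mem_orthogonal ξ
  by_cases hu0 : u = 0
  · left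
    have hP0 : ∀ z, P z = 0 := by
      intro z
      have : (fun z => P z) = fun _ => (0 : H) :=
        hcyc.equalizer P.continuous continuous_const (funext fun b => by
          show P (π b ξ) = 0
          rw [hcomm b ξ, ← hu, hu0, map_zero])
      exact congrFun this z
    refine (Submodule.eq_bot_iff M).2 fun z hz => ?_
    rw [← Submodule.starProjection_eq_self_iff.2 hz]
    exact hP0 z
  by_cases hv0 : v = 0
  · right
    exact top_of_mem (by rw [sub_eq_zero.1 hv0]; exact huM)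
  right
  have hsplit : ∀ b, φ b = ⟪u, π b u⟫_ℂ + ⟪v, π b v⟫_ℂ := by
    intro b
    rw [← hξ, show ξ = u + v by simp [v]]
    simp only [map_add, inner_add_left, inner_add_right]
    rw [Submodule.inner_right_of_mem_orthogonal huM (hperp b v hvM),
      Submodule.inner_left_of_mem_orthogonal (hinv b u huM) hvM]
    ring
  have hnu : 0 < ‖u‖ := norm_pos_iff.2 hu0
  have hnv : 0 < ‖v‖ := norm_pos_iff.2 hv0
  set u' := ((‖u‖⁻¹ : ℝ) : ℂ) • u with hu'
  set v' := ((‖v‖⁻¹ : ℝ) : ℂ) • v with hv'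
  obtain ⟨φ1, h1, e1⟩ := exists_vectorState π u' (by simp [hu', norm_smul, hnu.ne'])
  obtain ⟨φ2, h2, e2⟩ := exists_vectorState π v' (by simp [hv', norm_smul, hnv.ne'])
  have hsum : ‖u‖ ^ 2 + ‖v‖ ^ 2 = 1 := by
    have h := hsplit 1
    rw [hφ.1.2, map_one π] at h
    simp only [one_apply_eq_self, inner_self_eq_norm_sq_to_K] at h
    have h' := congrArg Complex.re h.symm
    norm_cast at h'
  have hcombo : ‖u‖ ^ 2 • φ1 + ‖v‖ ^ 2 • φ2 = φ := by
    refine ContinuousLinearMap.ext fun b => ?_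
    show ‖u‖ ^ 2 • φ1 b + ‖v‖ ^ 2 • φ2 b = φ b
    rw [e1, e2, hsplit]
    simp only [hu', hv', map_smul, inner_smul_left, inner_smul_right, Complex.real_smul,
      Complex.conj_ofReal]
    push_cast
    field_simp
  have h12 := hφ.2 h1 h2 ⟨‖u‖ ^ 2, ‖v‖ ^ 2, by positivity, by positivity, hsum, hcombo⟩
  have hut : u = ((‖u‖ ^ 2 : ℝ) : ℂ) • ξ := by
    refine ext_inner_right ℂ fun z => ?_
    have := congrFun (DenseRange.equalizer (g := fun z : H => ⟪u, z⟫_ℂ)
      (h := fun z : H => ⟪((‖u‖ ^ 2 : ℝ) : ℂ) • ξ, z⟫_ℂ) hcyc (by fun_prop) (by fun_prop)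
      (funext fun b => ?_)) z
    · exact this
    show ⟪u, π b ξ⟫_ℂ = ⟪((‖u‖ ^ 2 : ℝ) : ℂ) • ξ, π b ξ⟫_ℂ
    rw [inner_smul_left, hξ, Complex.conj_ofReal, ← h12, e1,
      show ξ = u + v by simp [v], map_add, inner_add_right,
      Submodule.inner_right_of_mem_orthogonal huM (hperp b v hvM)]
    simp only [hu', map_smul, inner_smul_left, inner_smul_right, Complex.conj_ofReal]
    push_cast
    field_simp
    ring
  refine top_of_mem ?_
  have hc : ((‖u‖ ^ 2 : ℝ) : ℂ) ≠ 0 := by exact_mod_cast (pow_ne_zero 2 hnu.ne')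
  have e : ((‖u‖ ^ 2 : ℝ) : ℂ)⁻¹ • u = ξ := (inv_smul_eq_iff₀ hc).2 hut
  exact e ▸ M.smul_mem _ huM

end Irred

section Face

variable {A : Type u} [NonUnitalCStarAlgebra A]

/-- An irreducible representation: nonzero, with no closed invariant subspace but the trivial
two. -/
def IsIrrRep {A : Type u} [NonUnitalCStarAlgebra A] {H : Type u} [NormedAddCommGroup H]
    [InnerProductSpace ℂ H] [CompleteSpace H] (π : A →⋆ₙₐ[ℂ] (H →L[ℂ] H)) : Prop :=
  π ≠ 0 ∧ ∀ M : Submodule ℂ H, IsClosed (M : Set H) → (∀ a, ∀ v ∈ M, π a v ∈ M) → M = ⊥ ∨ M = ⊤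

/-- A family of contractions with value one at a state is fixed in some irreducible
representation. The conclusion is transported by `Q`. -/
theorem exists_irrep_fixed (P : Set A) (hP : ∀ a ∈ P, ‖a‖ ≤ 1) (hne : P.Nonempty)
    (h : ∃ φ ∈ stateSet (Unitization ℂ A), ∀ a ∈ P, φ (a : Unitization ℂ A) = 1) {Q : Prop}
    (hQ : ∀ (K : Type u) [NormedAddCommGroup K] [InnerProductSpace ℂ K] [CompleteSpace K]
      (ρ : A →⋆ₙₐ[ℂ] (K →L[ℂ] K)) (ξ : K), IsIrrRep ρ → ‖ξ‖ = 1 →
        (∀ a ∈ P, ρ a ξ = ξ) → Q) : Q := by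
  letI : PartialOrder (Unitization ℂ A) := CStarAlgebra.spectralOrder _
  have : StarOrderedRing (Unitization ℂ A) := CStarAlgebra.spectralOrderedRing _
  set J : A → Unitization ℂ A := fun a => (a : Unitization ℂ A) with hJ
  obtain ⟨φ₀, hφ₀, hφ₀P⟩ := h
  obtain ⟨φ, hφ, hφP⟩ := exists_pure (J '' P)
    (by rintro _ ⟨a, ha, rfl⟩; simpa [hJ, Unitization.norm_inr] using hP a ha)
    ⟨φ₀, hφ₀, by rintro _ ⟨a, ha, rfl⟩; exact hφ₀P a ha⟩
  set f := statePos hφ.1
  set π := f.gnsStarAlgHom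
  set ξ : f.GNS := ((f.toPreGNS 1 : f.PreGNS) : f.GNS) with hξdef
  have happ : ∀ b, π b ξ = ((f.toPreGNS b : f.PreGNS) : f.GNS) := fun b => by
    simp [π, hξdef, PositiveLinearMap.leftMulMapPreGNS_apply]
  have hξ : ∀ b, ⟪ξ, π b ξ⟫_ℂ = φ b := fun b => by
    rw [happ, hξdef, UniformSpace.Completion.inner_coe, PositiveLinearMap.preGNS_inner_def]
    simp [f, statePos_apply]
  have hnorm : ‖ξ‖ = 1 := by
    have h := hξ 1
    rw [map_one π, hφ.1.2, one_apply_eq_self, inner_self_eq_norm_sq_to_K] at h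
    have h' : ‖ξ‖ ^ 2 = 1 := by simpa [← Complex.ofReal_pow] using h
    nlinarith [norm_nonneg ξ]
  have hcyc : DenseRange fun b => π b ξ := by
    simp only [happ]
    exact UniformSpace.Completion.denseRange_coe.comp f.toPreGNS.surjective.denseRange
      (UniformSpace.Completion.continuous_coe _)
  set ρ : A →⋆ₙₐ[ℂ] (f.GNS →L[ℂ] f.GNS) :=
    π.toNonUnitalStarAlgHom.comp (Unitization.inrNonUnitalStarAlgHom ℂ A) with hρ
  have hρapp : ∀ a, ρ a = π (a : Unitization ℂ A) := fun a => rfl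
  have hfix : ∀ a ∈ P, ρ a ξ = ξ := by
    intro a ha
    rw [hρapp, ← sub_eq_zero, ← norm_eq_zero]
    have hn : ‖π (a : Unitization ℂ A) ξ‖ ≤ 1 := by
      refine ((π _).le_opNorm ξ).trans ?_
      rw [hnorm, mul_one]
      exact (NonUnitalStarAlgHom.norm_apply_le π _).trans
        (by simpa [Unitization.norm_inr] using hP a ha)
    have h1 : ⟪ξ, π (a : Unitization ℂ A) ξ⟫_ℂ = 1 := (hξ _).trans (hφP _ ⟨a, ha, rfl⟩)
    have h2 := norm_sub_sq (𝕜 := ℂ) (π (a : Unitization ℂ A) ξ) ξ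
    rw [← inner_conj_symm, h1, hnorm, map_one] at h2
    simp only [RCLike.one_re, mul_one, one_pow] at h2
    nlinarith [norm_nonneg (π (a : Unitization ℂ A) ξ - ξ),
      norm_nonneg (π (a : Unitization ℂ A) ξ)]
  refine hQ f.GNS ρ ξ ⟨?_, ?_⟩ hnorm hfix
  · intro h0
    obtain ⟨a, ha⟩ := hne
    have h := hfix a ha
    rw [h0] at h
    have : ξ = 0 := h.symm
    simp [this] at hnorm
  · intro M hM hinv
    refine invariant_trivial π ξ hφ hξ hcyc M hM fun b v hv => ?_
    rw [show b = algebraMap ℂ (Unitization ℂ A) b.fst + (b.snd : Unitization ℂ A) by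
      ext <;> simp [Unitization.algebraMap_eq_inl]]
    rw [map_add, AlgHomClass.commutes, add_apply,
      Algebra.algebraMap_eq_smul_one, smul_apply, one_apply_eq_self]
    exact M.add_mem (M.smul_mem _ hv) (hinv b.snd v hv)

end Face

end Vale.Agent.P070
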